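import Vale.Agent.P318.H283.DSGlue

/-!
# P318, the (log n)^c code: the direct-sum step (3.2)
-/

open Finset

namespace Vale.Agent.P318.H283

open Vale.Agent.P318.H937 (push sz Lossless)

/-- direct-sum step, weak form, for a product of two spaces -/
theorem dsum_weak {a D W0 h q N c : ℕ} {e : ℝ} {C1 C2 : Type} [AddCommGroup C1]
    [Module (ZMod 2) C1] [Fintype C1] [DecidableEq C1] [AddCommGroup C2] [Module (ZMod 2) C2]
    [Fintype C2] [DecidableEq C2] (h1 : Module.finrank (ZMod 2) C1 ≤ c)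
    (h2 : Module.finrank (ZMod 2) C2 ≤ c)
    (E : Fin q → (C1 →ₗ[ZMod 2] V2 a)) (hE : VLoss W0 e E)
    (E' : Fin q → (C2 →ₗ[ZMod 2] V2 a)) (hE' : VLoss W0 e E')
    (F : Fin q → (V2 a × V2 a →ₗ[ZMod 2] V2 a)) (hF : VLoss W0 e F)
    (he : e ≤ 1 / 4) (hq : 1 ≤ q) (hh : 6 ≤ h) (hhq : 2 * q ≤ h)
    (hcode : CodeP a D W0 h (c + a) N) : WCodeFor a D W0 h (C1 × C2) (4 * q ^ 3 * N) := by
  classical
  intro κ _ R
  haveI : Nonempty (Fin q) := ⟨⟨0, hq⟩⟩
  have hd1 : Module.finrank (ZMod 2) (V2 a × C2) ≤ c + a := by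
    rw [Module.finrank_prod, finrank_V2]
    omega
  have hd2 : Module.finrank (ZMod 2) (C1 × V2 a) ≤ c + a := by
    rw [Module.finrank_prod, finrank_V2]
    omega
  -- the second and first component of a map
  let r2 : κ → (C2 →ₗ[ZMod 2] V2 a) := fun k => R k ∘ₗ LinearMap.inr (ZMod 2) C1 C2
  let r1 : κ → (C1 →ₗ[ZMod 2] V2 a) := fun k => R k ∘ₗ LinearMap.inl (ZMod 2) C1 C2
  have hr : ∀ k (x : C1 × C2), R k x = r1 k x.1 + r2 k x.2 := by
    intro k x
    change R k x = R k (x.1, 0) + R k (0, x.2)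
    rw [← map_add]
    congr 1
    simp
  -- the three kinds of views
  let vQ : Fin q → (C1 × C2 →ₗ[ZMod 2] V2 a × C2) := fun b => LinearMap.prodMap (E b) LinearMap.id
  let vP : Fin q → (C1 × C2 →ₗ[ZMod 2] C1 × V2 a) := fun w => LinearMap.prodMap LinearMap.id (E' w)
  let vI : κ → (C1 × C2 →ₗ[ZMod 2] C1 × V2 a) := fun k => LinearMap.prodMap LinearMap.id (r2 k)
  -- tests
  let RQ : (Fin q × Fin q) ⊕ (κ × Fin q) → (V2 a × C2 →ₗ[ZMod 2] V2 a) :=
    Sum.elim (fun cw => F cw.2 ∘ₗ LinearMap.prodMap LinearMap.id (E' cw.1))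
      (fun kw => F kw.2 ∘ₗ LinearMap.prodMap LinearMap.id (r2 kw.1))
  let RP : Fin q × Fin q → (C1 × V2 a →ₗ[ZMod 2] V2 a) :=
    fun bw => F bw.2 ∘ₗ LinearMap.prodMap (E bw.1) LinearMap.id
  let RI : κ → (Fin q × Fin q) ⊕ Unit → (C1 × V2 a →ₗ[ZMod 2] V2 a) := fun k =>
    Sum.elim (fun bw => F bw.2 ∘ₗ LinearMap.prodMap (E bw.1) LinearMap.id)
      (fun _ => LinearMap.coprod (r1 k) LinearMap.id)
  have hQ := fun _b : Fin q => hcode (V2 a × C2) hd1 ((Fin q × Fin q) ⊕ (κ × Fin q)) RQ
  have hP := fun _w : Fin q => hcode (C1 × V2 a) hd2 (Fin q × Fin q) RP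
  have hI := fun k : κ => hcode (C1 × V2 a) hd2 ((Fin q × Fin q) ⊕ Unit) (RI k)
  choose ιQ instQ TQ hQc hQT using hQ
  choose ιP instP TP hPc hPT using hP
  choose ιI instI TI hIc hIT using hI
  refine ⟨(Σ b, ιQ b) ⊕ ((Σ w, ιP w) ⊕ (Σ k, ιI k)), inferInstance,
    Sum.elim (fun s => TQ s.1 s.2 ∘ₗ vQ s.1)
      (Sum.elim (fun s => TP s.1 s.2 ∘ₗ vP s.1) (fun s => TI s.1 s.2 ∘ₗ vI s.1)), ?_, ?_⟩
  · -- the count
    rw [Fintype.card_sum, Fintype.card_sum, Fintype.card_sigma, Fintype.card_sigma,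
      Fintype.card_sigma]
    have e1 : ∑ b, Fintype.card (ιQ b) ≤ q * (N * (1 + (q * q + Fintype.card κ * q))) := by
      calc ∑ b, Fintype.card (ιQ b) ≤ ∑ _b : Fin q, N * (1 + (q * q + Fintype.card κ * q)) := by
            apply sum_le_sum
            intro b _
            have := hQc b
            rw [Fintype.card_sum, Fintype.card_prod, Fintype.card_prod, Fintype.card_fin] at this
            exact this
        _ = _ := by rw [sum_const, card_univ, Fintype.card_fin, smul_eq_mul]
    have e2 : ∑ w, Fintype.card (ιP w) ≤ q * (N * (1 + q * q)) := by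
      calc ∑ w, Fintype.card (ιP w) ≤ ∑ _w : Fin q, N * (1 + q * q) := by
            apply sum_le_sum
            intro w _
            have := hPc w
            rw [Fintype.card_prod, Fintype.card_fin] at this
            exact this
        _ = _ := by rw [sum_const, card_univ, Fintype.card_fin, smul_eq_mul]
    have e3 : ∑ k, Fintype.card (ιI k) ≤ Fintype.card κ * (N * (1 + (q * q + 1))) := by
      calc ∑ k, Fintype.card (ιI k) ≤ ∑ _k : κ, N * (1 + (q * q + 1)) := by
            apply sum_le_sum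
            intro k _
            have := hIc k
            rw [Fintype.card_sum, Fintype.card_prod, Fintype.card_fin, Fintype.card_unit] at this
            exact this
        _ = _ := by rw [sum_const, card_univ, smul_eq_mul]
    set m := Fintype.card κ with hm
    have hq2 : q ≤ q ^ 3 := Nat.le_self_pow (by norm_num) q
    have hq3 : q ^ 2 ≤ q ^ 3 := Nat.pow_le_pow_right hq (by norm_num)
    have hq4 : 1 ≤ q ^ 3 := Nat.one_le_pow _ _ hq
    calc ∑ b, Fintype.card (ιQ b) + (∑ w, Fintype.card (ιP w) + ∑ k, Fintype.card (ιI k))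
        ≤ q * (N * (1 + (q * q + m * q))) + (q * (N * (1 + q * q)) + m * (N * (1 + (q * q + 1)))) :=
          Nat.add_le_add e1 (Nat.add_le_add e2 e3)
      _ = N * (2 * q + 2 * q ^ 3 + m * (2 * q ^ 2 + 2)) := by ring
      _ ≤ N * (4 * q ^ 3 * (1 + m)) := by
          apply Nat.mul_le_mul_left
          have h5 : m * (2 * q ^ 2 + 2) ≤ m * (4 * q ^ 3) := by
            apply Nat.mul_le_mul_left
            omega
          calc 2 * q + 2 * q ^ 3 + m * (2 * q ^ 2 + 2) ≤ 4 * q ^ 3 + m * (4 * q ^ 3) := by omega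
            _ = 4 * q ^ 3 * (1 + m) := by ring
      _ = 4 * q ^ 3 * N * (1 + m) := by ring
  · intro W hW B hB
    have h6W : 6 * W ≤ W0 := (Nat.mul_le_mul_right _ hh).trans hW
    have h2qW : 2 * q * W ≤ W0 := (Nat.mul_le_mul_right _ hhq).trans hW
    have hneq : (univ : Finset (Fin q)).Nonempty := univ_nonempty
    have MQex : ∀ b : Fin q, ∃ U, sz U ≤ 2 * W ∧ (∀ i, push (TQ b i) U =
        push (TQ b i) (push (vQ b) B)) ∧ ∀ k, push (RQ k) U = push (RQ k) (push (vQ b) B) := by
      intro b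
      refine hQT b W hW (push (vQ b) B) (fun i => ?_)
      rw [push_push']
      exact hB (Sum.inl ⟨b, i⟩)
    have MPex : ∀ w : Fin q, ∃ U, sz U ≤ 2 * W ∧ (∀ i, push (TP w i) U =
        push (TP w i) (push (vP w) B)) ∧ ∀ k, push (RP k) U = push (RP k) (push (vP w) B) := by
      intro w
      refine hPT w W hW (push (vP w) B) (fun i => ?_)
      rw [push_push']
      exact hB (Sum.inr (Sum.inl ⟨w, i⟩))
    have MIex : ∀ k : κ, ∃ U, sz U ≤ 2 * W ∧ (∀ i, push (TI k i) U =
        push (TI k i) (push (vI k) B)) ∧ ∀ j, push (RI k j) U = push (RI k j) (push (vI k) B) := by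
      intro k
      refine hIT k W hW (push (vI k) B) (fun i => ?_)
      rw [push_push']
      exact hB (Sum.inr (Sum.inr ⟨k, i⟩))
    choose MQ hMQ0 hMQ1 hMQ2 using MQex
    choose MP hMP0 hMP1 hMP2 using MPex
    choose MI hMI0 hMI1 hMI2 using MIex
    -- the test principle on `V2 a × V2 a`
    have test : ∀ M M' : V2 a × V2 a → ZMod 2, sz M ≤ 2 * W → sz M' ≤ 2 * W →
        (∀ v, push (F v) M = push (F v) M') → M = M' := by
      intro M M' hM hM' hv
      refine lossless_ext hneq (by linarith) hF.single M M' (by omega) ?_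
      intro v _
      exact hv v
    -- consistency of `MP` and `MQ`
    have hcons : ∀ z w : Fin q, push (fun p : C1 × V2 a => (E z p.1, p.2)) (MP w) =
        push (fun p : V2 a × C2 => (p.1, E' w p.2)) (MQ z) := by
      intro z w
      apply test _ _ ((sz_push_le' _ _).trans (hMP0 w)) ((sz_push_le' _ _).trans (hMQ0 z))
      intro v
      have a1 := hMP2 w (z, v)
      have a2 := hMQ2 z (Sum.inl (w, v))
      have b1 : push (F v) (push (fun p : C1 × V2 a => (E z p.1, p.2)) (MP w)) =
          push (RP (z, v)) (MP w) := push_push' _ _ _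
      have b2 : push (F v) (push (fun p : V2 a × C2 => (p.1, E' w p.2)) (MQ z)) =
          push (RQ (Sum.inl (w, v))) (MQ z) := push_push' _ _ _
      rw [b1, b2, a1, a2, push_push', push_push']
      apply push_congr
      intro x
      rfl
    obtain ⟨U, hU1, hU2, hU3⟩ := ds_glue (fun z x => E z x) (fun w x => E' w x) e he W0 (2 * W)
      hE.single hE'.single (hE'.pair_right (V2 a)) (by omega)
      (by rw [Fintype.card_fin]; calc q * (2 * W) = 2 * q * W := by ring
            _ ≤ W0 := h2qW) MP MQ hMP0 hMQ0 hcons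
    have hUQ : ∀ b, push (vQ b) U = MQ b := fun b => hU2 b
    have hUP : ∀ w, push (vP w) U = MP w := fun w => hU1 w
    have hUI : ∀ k, push (vI k) U = MI k := by
      intro k
      refine lossless_ext hneq (by linarith) (hE.pair_left (V2 a)) _ _ ?_ ?_
      · have := sz_push_le' (vI k) U
        have := hMI0 k
        omega
      · intro b _
        have c1 : push (fun p : C1 × V2 a => (E b p.1, p.2)) (push (vI k) U) =
            push (fun p : V2 a × C2 => (p.1, r2 k p.2)) (MQ b) := by
          rw [← hUQ b, push_push', push_push']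
          apply push_congr
          intro x
          rfl
        rw [c1]
        apply test _ _ ((sz_push_le' _ _).trans (hMQ0 b)) ((sz_push_le' _ _).trans (hMI0 k))
        intro v
        have a1 := hMQ2 b (Sum.inr (k, v))
        have a2 := hMI2 k (Sum.inl (b, v))
        have b1 : push (F v) (push (fun p : V2 a × C2 => (p.1, r2 k p.2)) (MQ b)) =
            push (RQ (Sum.inr (k, v))) (MQ b) := push_push' _ _ _
        have b2 : push (F v) (push (fun p : C1 × V2 a => (E b p.1, p.2)) (MI k)) =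
            push (RI k (Sum.inl (b, v))) (MI k) := push_push' _ _ _
        rw [b1, b2, a1, a2, push_push', push_push']
        apply push_congr
        intro x
        rfl
    refine ⟨U, by omega, ?_, ?_⟩
    · rintro (⟨b, i⟩ | ⟨w, i⟩ | ⟨k, i⟩)
      · change push (fun x => TQ b i (vQ b x)) U = push (fun x => TQ b i (vQ b x)) B
        rw [← push_push' (vQ b) (TQ b i) U, ← push_push' (vQ b) (TQ b i) B, hUQ b]
        exact hMQ1 b i
      · change push (fun x => TP w i (vP w x)) U = push (fun x => TP w i (vP w x)) B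
        rw [← push_push' (vP w) (TP w i) U, ← push_push' (vP w) (TP w i) B, hUP w]
        exact hMP1 w i
      · change push (fun x => TI k i (vI k x)) U = push (fun x => TI k i (vI k x)) B
        rw [← push_push' (vI k) (TI k i) U, ← push_push' (vI k) (TI k i) B, hUI k]
        exact hMI1 k i
    · intro k
      have d1 : ∀ M : C1 × C2 → ZMod 2, push (R k) M = push (RI k (Sum.inr ())) (push (vI k) M) := by
        intro M
        rw [push_push']
        apply push_congr
        intro x
        rw [hr k x]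
        rfl
      rw [d1 U, d1 B, hUI k]
      exact hMI2 k (Sum.inr ())

/-- **(3.2)** the direct-sum step -/
theorem dsum_step {a D W0 h q N c d : ℕ} {e : ℝ} (hcond : HasCond a W0 d q e) (hd1 : 2 * c ≤ d)
    (hd2 : 2 * a ≤ d) (he : e ≤ 1 / 4) (hq : 1 ≤ q) (haD : a ≤ D) (hh : 6 ≤ h)
    (hhq : 2 * q ≤ h) (hcode : CodeP a D W0 h (c + a) N) :
    CodeP a D W0 h (2 * c) ((4 * q ^ 3 * N * (1 + q) + q) * (1 + 2 * q)) := by
  classical
  intro Y _ _ _ _ hY
  obtain ⟨E, hE⟩ := hcond (V2 c) (by rw [finrank_V2]; omega)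
  obtain ⟨F, hF⟩ := hcond (V2 a × V2 a) (by rw [Module.finrank_prod, finrank_V2]; omega)
  obtain ⟨G, hG⟩ := hcond (V2 c × V2 c) (by rw [Module.finrank_prod, finrank_V2]; omega)
  have h1 := dsum_weak (C1 := V2 c) (C2 := V2 c) (by rw [finrank_V2]) (by rw [finrank_V2])
    E hE E hE F hF he hq hh hhq hcode
  have h2 := shrink G hG he hq haD h1
  -- embedding of `Y` into `V2 c × V2 c`
  obtain ⟨f, hf⟩ := exists_inj Y (c + c) (by omega)
  let g : V2 (c + c) →ₗ[ZMod 2] V2 c × V2 c :=
    LinearMap.prod (LinearMap.funLeft (ZMod 2) (ZMod 2) (Fin.castAdd c))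
      (LinearMap.funLeft (ZMod 2) (ZMod 2) (Fin.natAdd c))
  have hg : Function.Injective g := by
    intro x y hxy
    have e1 : ∀ i : Fin c, x (Fin.castAdd c i) = y (Fin.castAdd c i) := fun i =>
      congrFun (congrArg Prod.fst hxy) i
    have e2 : ∀ i : Fin c, x (Fin.natAdd c i) = y (Fin.natAdd c i) := fun i =>
      congrFun (congrArg Prod.snd hxy) i
    funext i
    refine Fin.addCases e1 e2 i
  exact retract G hG he hq (by omega) (g ∘ₗ f) (hg.comp hf) h2

end Vale.Agent.P318.H283
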