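import Vale.Agent.P318.H937.Defs
import Vale.Agent.P318.H770.Meas

/-!
# P318, the (log n)^c code of helper6: frozen definitions and basic tools

`CodeFor a D W0 h Y N` : for every finite family `R` of linear maps `Y → F_2^a` there is a family
`T` of at most `N (1 + |R|)` linear maps `Y → F_2^D` such that every mod-2 measure `B` on `Y`
with all `|τ_* B| ≤ W` (`τ ∈ T`, `h W ≤ W0`) has a small twin `U`, `|U| ≤ 2 W`, with
`τ_* U = τ_* B`, `ρ_* U = ρ_* B`.
-/

open Finset

namespace Vale.Agent.P318.H283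

open Vale.Agent.P318.H937 (push sz Lossless)

/-- `F_2^k` -/
abbrev V2 (k : ℕ) : Type := Fin k → ZMod 2

/-- vector-valued losslessness (with labels) -/
def VLoss {Y : Type} [AddCommGroup Y] [Module (ZMod 2) Y] {a q : ℕ} (W0 : ℕ) (e : ℝ)
    (E : Fin q → (Y →ₗ[ZMod 2] V2 a)) : Prop :=
  ∀ (J L : Type) [Fintype J] [DecidableEq J] [Fintype L] [DecidableEq L],
    Lossless univ (fun (z : Fin q) (p : (J → Y) × L) => ((fun i => E z (p.1 i)), p.2)) W0 e

/-- all spaces of dimension at most `d` have condensers with `q` seeds, output dimension `a` -/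
def HasCond (a W0 d q : ℕ) (e : ℝ) : Prop :=
  ∀ (Y : Type) [AddCommGroup Y] [Module (ZMod 2) Y] [Fintype Y] [DecidableEq Y],
    Module.finrank (ZMod 2) Y ≤ d → ∃ E : Fin q → (Y →ₗ[ZMod 2] V2 a), VLoss W0 e E

/-- the code property of one space -/
def CodeFor (a D W0 h : ℕ) (Y : Type) [AddCommGroup Y] [Module (ZMod 2) Y] [Fintype Y]
    (N : ℕ) : Prop :=
  ∀ (κ : Type) [Fintype κ] (R : κ → (Y →ₗ[ZMod 2] V2 a)),
    ∃ (ι : Type) (_ : Fintype ι) (T : ι → (Y →ₗ[ZMod 2] V2 D)),
      Fintype.card ι ≤ N * (1 + Fintype.card κ) ∧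
      ∀ W : ℕ, h * W ≤ W0 → ∀ B : Y → ZMod 2, (∀ i, sz (push (T i) B) ≤ W) →
        ∃ U : Y → ZMod 2, sz U ≤ 2 * W ∧ (∀ i, push (T i) U = push (T i) B) ∧
          ∀ k, push (R k) U = push (R k) B

/-- the code property for all spaces of dimension at most `d` -/
def CodeP (a D W0 h d N : ℕ) : Prop :=
  ∀ (Y : Type) [AddCommGroup Y] [Module (ZMod 2) Y] [Fintype Y] [DecidableEq Y],
    Module.finrank (ZMod 2) Y ≤ d → CodeFor a D W0 h Y N

/-! ### tools for `push` and `sz` -/

section tools

variable {X Y Z : Type} [Fintype X] [Fintype Y] [Fintype Z] [DecidableEq Y] [DecidableEq Z]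

theorem add_self_meas {X : Type} (μ : X → ZMod 2) : μ + μ = 0 := H770.add_self_meas μ

theorem eq_of_add {X : Type} {μ ν : X → ZMod 2} (h : μ + ν = 0) : μ = ν :=
  H770.eq_of_add_eq_zero h

omit [Fintype Y] in
theorem push_add' (f : X → Y) (μ ν : X → ZMod 2) : push f (μ + ν) = push f μ + push f ν :=
  H770.push_add f μ ν

omit [Fintype Y] in
theorem push_zero' (f : X → Y) : push f (0 : X → ZMod 2) = 0 := H770.push_zero f

omit [Fintype Z] in
theorem push_push' (f : X → Y) (g : Y → Z) (μ : X → ZMod 2) :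
    push g (push f μ) = push (fun x => g (f x)) μ := H770.push_push f g μ

theorem push_id' [DecidableEq X] (μ : X → ZMod 2) : push (fun x : X => x) μ = μ :=
  H770.push_id μ

theorem sz_push_le' (f : X → Y) (μ : X → ZMod 2) : sz (push f μ) ≤ sz μ := by
  classical
  exact H770.sz_push_le f μ

theorem sz_add_le' (μ ν : X → ZMod 2) : sz (μ + ν) ≤ sz μ + sz ν := H770.sz_add_le μ ν

theorem sz_eq_zero' {μ : X → ZMod 2} : sz μ = 0 ↔ μ = 0 := H770.sz_eq_zero

theorem sz_zero' : sz (0 : X → ZMod 2) = 0 := H770.sz_zero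

omit [Fintype Y] in
theorem push_congr {f g : X → Y} (h : ∀ x, f x = g x) (μ : X → ZMod 2) :
    push f μ = push g μ := by
  have : f = g := funext h
  rw [this]

/-- (P4) -/
theorem lossless_sz {Sd : Type} {S : Finset Sd} {T : Sd → X → Y} {W0 : ℕ} {e : ℝ}
    (h : Lossless S T W0 e) (M : X → ZMod 2) (hM : sz M ≤ W0) :
    (1 - 2 * e) * S.card * sz M ≤ ∑ c ∈ S, (sz (push (T c) M) : ℝ) := by
  classical
  have h1 := h (H770.sup M) hM
  have h2 : ∀ c ∈ S, 2 * ((((H770.sup M).image (T c)).card : ℕ) : ℝ) ≤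
      (sz M : ℝ) + (sz (push (T c) M) : ℝ) := by
    intro c _
    have h3 := H770.two_mul_card_image_le (T c) (H770.sup M)
    have h4 := H770.card_iso_le_sz_push (T c) M
    have h5 : 2 * ((H770.sup M).image (T c)).card ≤ sz M + sz (push (T c) M) :=
      h3.trans (Nat.add_le_add_left h4 _)
    exact_mod_cast h5
  have h3 := sum_le_sum h2
  rw [← mul_sum, sum_add_distrib, sum_const, nsmul_eq_mul] at h3
  have h4 : ((H770.sup M).card : ℝ) = (sz M : ℝ) := rfl
  rw [h4] at h1
  nlinarith

/-- (P3) -/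
theorem lossless_eq_zero {Sd : Type} {S : Finset Sd} (hS : S.Nonempty) {T : Sd → X → Y} {W0 : ℕ}
    {e : ℝ} (he : 2 * e < 1) (h : Lossless S T W0 e) (M : X → ZMod 2) (hM : sz M ≤ W0)
    (h0 : ∀ c ∈ S, push (T c) M = 0) : M = 0 := by
  have h1 := lossless_sz h M hM
  have h2 : ∑ c ∈ S, (sz (push (T c) M) : ℝ) = 0 := by
    apply sum_eq_zero
    intro c hc
    rw [h0 c hc, sz_zero']
    simp
  rw [h2] at h1
  have h3 : (0 : ℝ) < S.card := by
    have := card_pos.mpr hS
    exact_mod_cast this
  have h4 : (0 : ℝ) ≤ sz M := Nat.cast_nonneg _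
  have h5 : (sz M : ℝ) ≤ 0 := by
    by_contra h6
    push Not at h6
    have : 0 < (1 - 2 * e) * S.card * sz M := by
      apply mul_pos (mul_pos (by linarith) h3) h6
    linarith
  have h6 : sz M = 0 := by exact_mod_cast le_antisymm h5 h4
  exact sz_eq_zero'.mp h6

/-- two small measures with the same images are equal -/
theorem lossless_ext {Sd : Type} {S : Finset Sd} (hS : S.Nonempty) {T : Sd → X → Y} {W0 : ℕ}
    {e : ℝ} (he : 2 * e < 1) (h : Lossless S T W0 e) (M M' : X → ZMod 2)
    (hM : sz M + sz M' ≤ W0) (h0 : ∀ c ∈ S, push (T c) M = push (T c) M') : M = M' := by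
  apply eq_of_add
  apply lossless_eq_zero hS he h
  · exact (sz_add_le' _ _).trans hM
  · intro c hc
    rw [push_add', h0 c hc, add_self_meas]

end tools

/-! ### special cases of vector-valued losslessness -/

section vloss

variable {Y : Type} [AddCommGroup Y] [Module (ZMod 2) Y] {a q : ℕ} {W0 : ℕ} {e : ℝ}

/-- transport of losslessness along injections -/
theorem Lossless.comap {Sd X X' Z Z' : Type} [DecidableEq X'] [DecidableEq Z'] {S : Finset Sd}
    {T : Sd → X → X'} {T' : Sd → Z → Z'} {W0 : ℕ} {e : ℝ} (h : Lossless S T W0 e)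
    (i : Z → X) (hi : Function.Injective i) (j : Z' → X')
    (hij : ∀ c z, j (T' c z) = T c (i z)) : Lossless S T' W0 e := by
  classical
  intro U hU
  have h1 := h (U.image i) (by rw [card_image_of_injective _ hi]; exact hU)
  rw [card_image_of_injective _ hi] at h1
  refine h1.trans (sum_le_sum fun c _ => ?_)
  have h2 : (U.image i).image (T c) = (U.image (T' c)).image j := by
    rw [image_image, image_image]
    apply image_congr
    intro z _
    exact (hij c z).symm
  rw [h2]
  exact_mod_cast card_image_le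

/-- scalar with label on the right: `(y, l) ↦ (E y, l)` -/
theorem VLoss.pair_left {E : Fin q → (Y →ₗ[ZMod 2] V2 a)} (h : VLoss W0 e E) (L : Type)
    [Fintype L] [DecidableEq L] :
    Lossless univ (fun (z : Fin q) (p : Y × L) => (E z p.1, p.2)) W0 e :=
  Lossless.comap (h Unit L) (fun p => (fun _ => p.1, p.2))
    (fun p p' hp => by
      have h1 := congrArg Prod.fst hp
      have h2 := congrArg Prod.snd hp
      exact Prod.ext (congrFun h1 ()) h2)
    (fun p => (fun _ => p.1, p.2)) (fun _ _ => rfl)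

/-- scalar with label on the left: `(l, y) ↦ (l, E y)` -/
theorem VLoss.pair_right {E : Fin q → (Y →ₗ[ZMod 2] V2 a)} (h : VLoss W0 e E) (L : Type)
    [Fintype L] [DecidableEq L] :
    Lossless univ (fun (z : Fin q) (p : L × Y) => (p.1, E z p.2)) W0 e :=
  Lossless.comap (h Unit L) (fun p => (fun _ => p.2, p.1))
    (fun p p' hp => by
      have h1 := congrArg Prod.fst hp
      have h2 := congrArg Prod.snd hp
      exact Prod.ext h2 (congrFun h1 ()))
    (fun p => (fun _ => p.2, p.1)) (fun _ _ => rfl)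

/-- scalar without label -/
theorem VLoss.single {E : Fin q → (Y →ₗ[ZMod 2] V2 a)} (h : VLoss W0 e E) :
    Lossless univ (fun (z : Fin q) (y : Y) => E z y) W0 e :=
  Lossless.comap (h Unit Unit) (fun y => (fun _ => y, ()))
    (fun _ _ hp => congrFun (congrArg Prod.fst hp) ())
    (fun y => (fun _ => y, ())) (fun _ _ => rfl)

end vloss

/-! ### base case -/

/-- (3.0) -/
theorem code_base (a D W0 h d : ℕ) (hd : d ≤ D) : CodeP a D W0 h d 1 := by
  intro Y _ _ _ _ hY κ _ R
  have hex : ∃ f : Y →ₗ[ZMod 2] V2 D, Function.Injective f := by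
    let b := Module.finBasis (ZMod 2) Y
    have hle : Module.finrank (ZMod 2) Y ≤ D := hY.trans hd
    refine ⟨{ toFun := fun y i => if hi : i.1 < Module.finrank (ZMod 2) Y then
                b.repr y ⟨i.1, hi⟩ else 0
              map_add' := ?_, map_smul' := ?_ }, ?_⟩
    · intro x y
      funext i
      by_cases hi : i.1 < Module.finrank (ZMod 2) Y
      · simp [hi]
      · simp [hi]
    · intro c x
      funext i
      by_cases hi : i.1 < Module.finrank (ZMod 2) Y
      · simp [hi]
      · simp [hi]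
    · intro x y hxy
      apply b.repr.injective
      ext i
      have h1 := congrFun hxy ⟨i.1, lt_of_lt_of_le i.2 hle⟩
      simpa using h1
  obtain ⟨f, hf⟩ := hex
  refine ⟨Unit, inferInstance, fun _ => f, by simp, ?_⟩
  intro W _ B hB
  refine ⟨B, ?_, fun _ => rfl, fun _ => rfl⟩
  have h1 : sz (push f B) ≤ W := hB ()
  have h2 : sz B ≤ sz (push f B) := by
    have h3 := H770.card_iso_le_sz_push f B
    have h4 : H770.iso f (H770.sup B) = H770.sup B := by
      ext x
      rw [H770.mem_iso]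
      exact ⟨fun hx => hx.1, fun hx => ⟨hx, fun x' _ hx' => hf hx'⟩⟩
    rw [h4] at h3
    exact h3
  omega

end Vale.Agent.P318.H283
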