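import Vale.Agent.P318.H283.PDef

/-!
# P318, the (log n)^c code: shrinking and retraction

* `shrink` : a twin `U` of size at most `W0` can be taken of size at most `2 W`
  (single-shot condensers of `Y` are added to the tests);
* `retract` : the code property passes to subspaces.
-/

open Finset

namespace Vale.Agent.P318.H283

open Vale.Agent.P318.H937 (push sz Lossless)

/-- linear injection into `F_2^D` -/
theorem exists_inj (Y : Type) [AddCommGroup Y] [Module (ZMod 2) Y] [Fintype Y] (D : ℕ)
    (hY : Module.finrank (ZMod 2) Y ≤ D) : ∃ f : Y →ₗ[ZMod 2] V2 D, Function.Injective f := by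
  let b := Module.finBasis (ZMod 2) Y
  refine ⟨{ toFun := fun y i => if hi : i.1 < Module.finrank (ZMod 2) Y then
              b.repr y ⟨i.1, hi⟩ else 0
            map_add' := ?_, map_smul' := ?_ }, ?_⟩
  · intro x y
    funext i
    by_cases hi : i.1 < Module.finrank (ZMod 2) Y
    · simp [hi]
    · simp [hi]
  · intro c x
    funext i
    by_cases hi : i.1 < Module.finrank (ZMod 2) Y
    · simp [hi]
    · simp [hi]
  · intro x y hxy
    apply b.repr.injective
    ext i
    have h1 := congrFun hxy ⟨i.1, lt_of_lt_of_le i.2 hY⟩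
    simpa using h1

theorem finrank_V2 (k : ℕ) : Module.finrank (ZMod 2) (V2 k) = k := by
  rw [Module.finrank_fin_fun]

/-- injective maps preserve the size -/
theorem sz_push_inj {X Y : Type} [Fintype X] [Fintype Y] [DecidableEq Y] (f : X → Y)
    (hf : Function.Injective f) (B : X → ZMod 2) : sz (push f B) = sz B := by
  apply le_antisymm (sz_push_le' f B)
  have h3 := H770.card_iso_le_sz_push f B
  have h4 : H770.iso f (H770.sup B) = H770.sup B := by
    ext x
    rw [H770.mem_iso]
    exact ⟨fun hx => hx.1, fun hx => ⟨hx, fun x' _ hx' => hf hx'⟩⟩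
  rw [h4] at h3
  exact h3

/-- the weak code property: the twin is only required to be of size at most `W0` -/
def WCodeFor (a D W0 h : ℕ) (Y : Type) [AddCommGroup Y] [Module (ZMod 2) Y] [Fintype Y]
    (N : ℕ) : Prop :=
  ∀ (κ : Type) [Fintype κ] (R : κ → (Y →ₗ[ZMod 2] V2 a)),
    ∃ (ι : Type) (_ : Fintype ι) (T : ι → (Y →ₗ[ZMod 2] V2 D)),
      Fintype.card ι ≤ N * (1 + Fintype.card κ) ∧
      ∀ W : ℕ, h * W ≤ W0 → ∀ B : Y → ZMod 2, (∀ i, sz (push (T i) B) ≤ W) →
        ∃ U : Y → ZMod 2, sz U ≤ W0 ∧ (∀ i, push (T i) U = push (T i) B) ∧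
          ∀ k, push (R k) U = push (R k) B

theorem shrink {a D W0 h q N : ℕ} {e : ℝ} {Y : Type} [AddCommGroup Y] [Module (ZMod 2) Y]
    [Fintype Y] (E : Fin q → (Y →ₗ[ZMod 2] V2 a)) (hE : VLoss W0 e E) (he : e ≤ 1 / 4)
    (hq : 1 ≤ q) (haD : a ≤ D) (hY : WCodeFor a D W0 h Y N) :
    CodeFor a D W0 h Y (N * (1 + q) + q) := by
  classical
  intro κ _ R
  obtain ⟨pad, hpad⟩ := exists_inj (V2 a) D (by rw [finrank_V2]; exact haD)
  obtain ⟨ι, _, T, hc, hT⟩ := hY (κ ⊕ Fin q) (Sum.elim R E)
  refine ⟨ι ⊕ Fin q, inferInstance, Sum.elim T (fun v => pad ∘ₗ E v), ?_, ?_⟩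
  · rw [Fintype.card_sum, Fintype.card_fin]
    rw [Fintype.card_sum, Fintype.card_fin] at hc
    calc Fintype.card ι + q ≤ N * (1 + (Fintype.card κ + q)) + q := by omega
      _ ≤ (N * (1 + q) + q) * (1 + Fintype.card κ) := by nlinarith [Nat.zero_le (N * q * Fintype.card κ), Nat.zero_le (q * Fintype.card κ)]
  · intro W hW B hB
    obtain ⟨U, hU0, hU1, hU2⟩ := hT W hW B (fun i => hB (Sum.inl i))
    have hpp : ∀ (M : Y → ZMod 2) (v : Fin q),
        push (⇑(pad ∘ₗ E v)) M = push pad (push (E v) M) := by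
      intro M v
      rw [push_push']
      rfl
    have hEU : ∀ v, push (E v) U = push (E v) B := fun v => hU2 (Sum.inr v)
    refine ⟨U, ?_, ?_, fun k => hU2 (Sum.inl k)⟩
    · have h1 := lossless_sz hE.single U hU0
      have h2 : ∑ c ∈ (univ : Finset (Fin q)), (sz (push (fun y => E c y) U) : ℝ) ≤
          ∑ _c ∈ (univ : Finset (Fin q)), (W : ℝ) := by
        apply sum_le_sum
        intro v _
        have h3 : sz (push (fun y => E v y) U) ≤ W := by
          have h4 : push (fun y => E v y) U = push (E v) B := hEU v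
          rw [h4]
          have h5 := hB (Sum.inr v)
          have h6 : sz (push (⇑(pad ∘ₗ E v)) B) ≤ W := h5
          rw [hpp, sz_push_inj _ hpad] at h6
          exact h6
        exact_mod_cast h3
      rw [sum_const, card_univ, Fintype.card_fin, nsmul_eq_mul] at h2
      rw [card_univ, Fintype.card_fin] at h1
      have h3 : (1 : ℝ) ≤ q := by exact_mod_cast hq
      have h4 : (0 : ℝ) ≤ sz U := Nat.cast_nonneg _
      have h5 : (1 / 2 : ℝ) * (q * sz U) ≤ q * W := by
        calc (1 / 2 : ℝ) * (q * sz U) ≤ (1 - 2 * e) * (q * sz U) :=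
              mul_le_mul_of_nonneg_right (by linarith) (by positivity)
          _ = (1 - 2 * e) * q * sz U := by ring
          _ ≤ q * W := h1.trans h2
      have h6 : (q : ℝ) * sz U ≤ q * (2 * W) := by linarith
      have h7 : (sz U : ℝ) ≤ 2 * W := le_of_mul_le_mul_left h6 (by linarith)
      exact_mod_cast h7
    · rintro (i | v)
      · exact hU1 i
      · change push (⇑(pad ∘ₗ E v)) U = push (⇑(pad ∘ₗ E v)) B
        rw [hpp, hpp, hEU v]

/-- (3.1) -/
theorem retract {a D W0 h q N : ℕ} {e : ℝ} {Y Y' : Type} [AddCommGroup Y] [Module (ZMod 2) Y]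
    [Fintype Y] [AddCommGroup Y'] [Module (ZMod 2) Y'] [Fintype Y'] [DecidableEq Y']
    (F : Fin q → (Y' →ₗ[ZMod 2] V2 a)) (hF : VLoss W0 e F) (he : e ≤ 1 / 4) (hq : 1 ≤ q)
    (hh : 4 ≤ h) (i0 : Y →ₗ[ZMod 2] Y') (hi : Function.Injective i0)
    (hY : CodeFor a D W0 h Y' N) : CodeFor a D W0 h Y (N * (1 + 2 * q)) := by
  classical
  intro κ _ R
  obtain ⟨π, hπ⟩ := LinearMap.exists_leftInverse_of_injective i0 (LinearMap.ker_eq_bot.mpr hi)
  have hπ' : ∀ y, π (i0 y) = y := fun y => LinearMap.congr_fun hπ y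
  obtain ⟨ι, _, T, hc, hT⟩ := hY (κ ⊕ (Fin q ⊕ Fin q))
    (Sum.elim (fun k => R k ∘ₗ π) (Sum.elim F (fun v => F v ∘ₗ (i0 ∘ₗ π))))
  refine ⟨ι, inferInstance, fun i => T i ∘ₗ i0, ?_, ?_⟩
  · rw [Fintype.card_sum, Fintype.card_sum, Fintype.card_fin] at hc
    calc Fintype.card ι ≤ N * (1 + (Fintype.card κ + (q + q))) := hc
      _ ≤ N * (1 + 2 * q) * (1 + Fintype.card κ) := by
          nlinarith [Nat.zero_le (N * q * Fintype.card κ)]
  · intro W hW B hB
    have hpp : ∀ (M : Y → ZMod 2) (i : ι), push (⇑(T i ∘ₗ i0)) M = push (T i) (push i0 M) := by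
      intro M i
      rw [push_push']
      rfl
    obtain ⟨U', hU0, hU1, hU2⟩ := hT W hW (push i0 B) (fun i => by
      rw [← hpp]
      exact hB i)
    have hR : ∀ k, push (fun y => R k (π y)) U' = push (fun y => R k (π y)) (push i0 B) :=
      fun k => hU2 (Sum.inl k)
    have hF1 : ∀ v, push (F v) U' = push (F v) (push i0 B) := fun v => hU2 (Sum.inr (Sum.inl v))
    have hF2 : ∀ v, push (fun y => F v (i0 (π y))) U' =
        push (fun y => F v (i0 (π y))) (push i0 B) := fun v => hU2 (Sum.inr (Sum.inr v))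
    have hkey : push i0 (push π U') = U' := by
      rw [push_push']
      have hne : (univ : Finset (Fin q)).Nonempty := ⟨⟨0, hq⟩, mem_univ _⟩
      refine lossless_ext hne (by linarith) hF.single _ _ ?_ ?_
      · have h1 := sz_push_le' (fun y => i0 (π y)) U'
        have h2 : 4 * W ≤ h * W := Nat.mul_le_mul_right _ hh
        omega
      · intro v _
        have h1 : push (fun y => F v y) (push (fun y => i0 (π y)) U') =
            push (fun y => F v (i0 (π y))) U' := push_push' _ _ _
        have h2 : push (fun y => F v (i0 (π y))) (push i0 B) = push (fun y => F v y) (push i0 B) := by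
          rw [push_push', push_push']
          apply push_congr
          intro y
          rw [hπ']
        rw [h1, hF2 v, h2]
        exact (hF1 v).symm
    refine ⟨push π U', (sz_push_le' _ _).trans hU0, ?_, ?_⟩
    · intro i
      rw [hpp, hpp, hkey]
      exact hU1 i
    · intro k
      rw [push_push', hR k, push_push']
      apply push_congr
      intro y
      rw [hπ']

end Vale.Agent.P318.H283
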