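import Vale.Agent.P318.H283.Retract

/-!
# P318, the (log n)^c code: condensers for abstract spaces
-/

open Finset

namespace Vale.Agent.P318.H283

open Vale.Agent.P318.H937 (push sz Lossless)

/-- precomposition with an injection -/
theorem VLoss.comp {Y Y' : Type} [AddCommGroup Y] [Module (ZMod 2) Y] [AddCommGroup Y']
    [Module (ZMod 2) Y'] {a q W0 : ℕ} {e : ℝ} {E : Fin q → (Y' →ₗ[ZMod 2] V2 a)}
    (hE : VLoss W0 e E) (f : Y →ₗ[ZMod 2] Y') (hf : Function.Injective f) :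
    VLoss W0 e (fun z => E z ∘ₗ f) := by
  intro J L _ _ _ _
  exact Lossless.comap (hE J L) (fun p : (J → Y) × L => (fun i => f (p.1 i), p.2))
    (fun p p' hp => by
      have h1 := congrArg Prod.fst hp
      have h2 := congrArg Prod.snd hp
      exact Prod.ext (funext fun i => hf (congrFun h1 i)) h2)
    (fun p => p) (fun _ _ => rfl)

/-- monotonicity in the size bound and in the loss -/
theorem VLoss.mono {Y : Type} [AddCommGroup Y] [Module (ZMod 2) Y] {a q W0 W1 : ℕ} {e e1 : ℝ}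
    {E : Fin q → (Y →ₗ[ZMod 2] V2 a)} (hE : VLoss W0 e E) (hW : W1 ≤ W0) (he : e ≤ e1) :
    VLoss W1 e1 E := by
  intro J L _ _ _ _ U hU
  refine le_trans ?_ (hE J L U (hU.trans hW))
  have h1 : (0 : ℝ) ≤ ((univ : Finset (Fin q)).card : ℝ) * U.card := by positivity
  nlinarith

theorem hasCond_of_vloss {a W0 d q : ℕ} {e : ℝ}
    (hv : ∃ E : Fin q → (V2 d →ₗ[ZMod 2] V2 a), VLoss W0 e E) : HasCond a W0 d q e := by
  intro Y _ _ _ _ hY
  obtain ⟨E, hE⟩ := hv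
  obtain ⟨f, hf⟩ := exists_inj Y d hY
  exact ⟨fun z => E z ∘ₗ f, hE.comp f hf⟩

theorem HasCond.mono {a W0 W1 d d1 q : ℕ} {e e1 : ℝ} (h : HasCond a W0 d q e) (hW : W1 ≤ W0)
    (hd : d1 ≤ d) (he : e ≤ e1) : HasCond a W1 d1 q e1 := by
  intro Y _ _ _ _ hY
  obtain ⟨E, hE⟩ := h Y (hY.trans hd)
  exact ⟨E, hE.mono hW he⟩

/-- monotonicity of the code property -/
theorem CodeP.mono {a D W0 h d N d1 N1 : ℕ} (hc : CodeP a D W0 h d N) (hd : d1 ≤ d)
    (hN : N ≤ N1) : CodeP a D W0 h d1 N1 := by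
  intro Y _ _ _ _ hY κ _ R
  obtain ⟨ι, i1, T, h1, h2⟩ := hc Y (hY.trans hd) κ R
  exact ⟨ι, i1, T, h1.trans (Nat.mul_le_mul_right _ hN), h2⟩

end Vale.Agent.P318.H283
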