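import Vale.Agent.P318.H283.Retract

/-!
# P318, the (log n)^c code: gluing of two blocks (direct sums)

`P w` on `C1 × A2`, `Q z` on `A1 × C2`, consistent on `A1 × A2`.  The union of the first
coordinates of the `P w` is small; some first coordinate `f` is isolated for some seed `z`; then
`Q z (E z f, ·)` is the row of the glued measure over `f`.  Peel `f` off and induct.
-/

open Finset

namespace Vale.Agent.P318.H283

open Vale.Agent.P318.H937 (push sz Lossless)

/-- there is an isolated element for some seed -/
theorem exists_iso {Sd X X' : Type} [DecidableEq X'] {S : Finset Sd} (hS : S.Nonempty)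
    {T : Sd → X → X'} {W0 : ℕ} {e : ℝ} (he : e ≤ 1 / 4) (h : Lossless S T W0 e)
    (U : Finset X) (hU : U.card ≤ W0) (hne : U.Nonempty) :
    ∃ f ∈ U, ∃ z ∈ S, ∀ x ∈ U, T z x = T z f → x = f := by
  classical
  by_contra hcon
  push Not at hcon
  have h1 := h U hU
  have h2 : ∀ z ∈ S, (((U.image (T z)).card : ℕ) : ℝ) ≤ (U.card : ℝ) / 2 := by
    intro z hz
    have h3 := H770.two_mul_card_image_le (T z) U
    have h4 : H770.iso (T z) U = ∅ := by
      rw [eq_empty_iff_forall_notMem]
      intro f hf
      rw [H770.mem_iso] at hf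
      obtain ⟨x, hx, hx1, hx2⟩ := hcon f hf.1 z hz
      exact hx2 (hf.2 x hx hx1)
    rw [h4, card_empty, add_zero] at h3
    have h5 : (2 : ℝ) * ((U.image (T z)).card : ℝ) ≤ U.card := by exact_mod_cast h3
    linarith
  have h3 := sum_le_sum h2
  rw [sum_const, nsmul_eq_mul] at h3
  have h4 : (0 : ℝ) < S.card := by exact_mod_cast card_pos.mpr hS
  have h5 : (0 : ℝ) < U.card := by exact_mod_cast card_pos.mpr hne
  have h6 : 0 < (S.card : ℝ) * U.card := mul_pos h4 h5
  nlinarith

section glue

variable {C1 C2 A1 A2 S1 S2 : Type} [Fintype C1] [Fintype C2] [Fintype A1] [Fintype A2]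
  [DecidableEq C1] [DecidableEq C2] [DecidableEq A1] [DecidableEq A2] [Fintype S1] [Fintype S2]

/-- row measure: `δ_f ⊗ V` -/
def rowm {C1 C2 : Type} [DecidableEq C1] (f : C1) (V : C2 → ZMod 2) : C1 × C2 → ZMod 2 :=
  fun p => if p.1 = f then V p.2 else 0

omit [Fintype A2] in
theorem push_rowm (f : C1) (V : C2 → ZMod 2) (g : C2 → A2) :
    push (fun p : C1 × C2 => (p.1, g p.2)) (rowm f V) = rowm f (push g V) := by
  funext ⟨c, α⟩
  simp only [push, rowm]
  by_cases hc : c = f
  · rw [if_pos hc]
    subst hc
    symm
    apply sum_bij_ne_zero (fun y _ _ => (c, y))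
    · intro y hy _
      simp only [mem_filter, mem_univ, true_and] at hy ⊢
      rw [hy]
    · intro y _ _ y' _ _ hyy
      exact congrArg Prod.snd hyy
    · intro p hp hp0
      simp only [mem_filter, mem_univ, true_and, Prod.mk.injEq] at hp
      refine ⟨p.2, ?_, ?_, ?_⟩
      · simp only [mem_filter, mem_univ, true_and]
        exact hp.2
      · intro h0
        apply hp0
        rw [if_pos hp.1]
        exact h0
      · rw [← hp.1]
    · intro y _ _
      rw [if_pos rfl]
  · rw [if_neg hc]
    apply sum_eq_zero
    intro p hp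
    simp only [mem_filter, mem_univ, true_and, Prod.mk.injEq] at hp
    rw [if_neg]
    intro h
    exact hc (hp.1.symm.trans h)

omit [Fintype A1] [Fintype A2] [DecidableEq C2] [DecidableEq A1] [DecidableEq A2] in
theorem sz_rowm (f : C1) (V : C2 → ZMod 2) : sz (rowm f V) = sz V := by
  unfold sz
  symm
  apply card_bij (fun y _ => (f, y))
  · intro y hy
    rw [mem_filter] at hy ⊢
    refine ⟨mem_univ _, ?_⟩
    change (if f = f then V y else 0) ≠ 0
    rw [if_pos rfl]
    exact hy.2
  · intro y _ y' _ h
    exact congrArg Prod.snd h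
  · intro p hp
    rw [mem_filter] at hp
    have hp2 : (if p.1 = f then V p.2 else 0) ≠ 0 := hp.2
    by_cases h : p.1 = f
    · refine ⟨p.2, ?_, ?_⟩
      · rw [mem_filter]
        rw [if_pos h] at hp2
        exact ⟨mem_univ _, hp2⟩
      · rw [← h]
    · rw [if_neg h] at hp2
      exact absurd rfl hp2

/-- gluing of two blocks: induction on the set of first coordinates -/
theorem ds_glue_aux (E : S1 → C1 → A1) (E' : S2 → C2 → A2) (e : ℝ) (he : e ≤ 1 / 4)
    (W0 : ℕ) [Nonempty S1] [Nonempty S2]
    (hE : Lossless (univ : Finset S1) E W0 e) (hE' : Lossless (univ : Finset S2) E' W0 e)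
    (hL : Lossless (univ : Finset S2) (fun w (p : A1 × C2) => (p.1, E' w p.2)) W0 e) (b : ℕ)
    (hb : b ≤ W0) :
    ∀ (n : ℕ) (F1 : Finset C1), F1.card = n → n ≤ W0 →
      ∀ (P : S2 → C1 × A2 → ZMod 2) (Q : S1 → A1 × C2 → ZMod 2),
        (∀ w p, P w p ≠ 0 → p.1 ∈ F1) →
        (∀ z, Fintype.card S2 * sz (Q z) + 2 * ∑ w, sz (P w) ≤ Fintype.card S2 * b) →
        (∀ z w, push (fun p : C1 × A2 => (E z p.1, p.2)) (P w) =
          push (fun p : A1 × C2 => (p.1, E' w p.2)) (Q z)) →
        ∃ U : C1 × C2 → ZMod 2, (∀ w, push (fun p => (p.1, E' w p.2)) U = P w) ∧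
          (∀ z, push (fun p => (E z p.1, p.2)) U = Q z) ∧
          Fintype.card S2 * sz U ≤ 2 * ∑ w, sz (P w) := by
  have hq2 : 0 < Fintype.card S2 := Fintype.card_pos
  have hS1 : (univ : Finset S1).Nonempty := univ_nonempty
  have hS2 : (univ : Finset S2).Nonempty := univ_nonempty
  intro n
  induction n with
  | zero =>
    intro F1 hF1 _ P Q hP hQ hc
    rw [card_eq_zero] at hF1
    have hP0 : ∀ w, P w = 0 := by
      intro w
      funext p
      by_contra h
      have := hP w p h
      rw [hF1] at this
      simp at this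
    have hQ0 : ∀ z, Q z = 0 := by
      intro z
      refine lossless_eq_zero hS2 (by linarith) hL (Q z) ?_ ?_
      · have h1 := hQ z
        have h2 : Fintype.card S2 * sz (Q z) ≤ Fintype.card S2 * b := by omega
        exact (Nat.le_of_mul_le_mul_left h2 hq2).trans hb
      · intro w _
        rw [← hc z w, hP0 w, push_zero']
    refine ⟨0, ?_, ?_, ?_⟩
    · intro w
      rw [push_zero', hP0]
    · intro z
      rw [push_zero', hQ0]
    · rw [sz_zero']
      simp
  | succ n ih =>
    intro F1 hF1 hn P Q hP hQ hc
    have hne : F1.Nonempty := by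
      rw [← card_pos]
      omega
    obtain ⟨f, hf, z, _, hiso⟩ := exists_iso hS1 he hE F1 (by omega) hne
    set V : C2 → ZMod 2 := fun y => Q z (E z f, y) with hV
    have hVsz : sz V ≤ sz (Q z) := by
      simp only [sz]
      apply card_le_card_of_injOn (fun y => (E z f, y))
      · intro y hy
        simp only [coe_filter, mem_univ, true_and, Set.mem_ofPred_eq] at hy ⊢
        exact hy
      · intro y _ y' _ h
        exact congrArg Prod.snd h
    -- the row of `P w` over `f`
    have hrow : ∀ w, push (E' w) V = fun α => P w (f, α) := by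
      intro w
      funext α
      have h1 := congrFun (hc z w) (E z f, α)
      have h2 : push (fun p : A1 × C2 => (p.1, E' w p.2)) (Q z) (E z f, α) = push (E' w) V α := by
        simp only [push]
        symm
        apply sum_bij (fun y _ => (E z f, y))
        · intro y hy
          simp only [mem_filter, mem_univ, true_and] at hy ⊢
          rw [hy]
        · intro y _ y' _ hyy
          exact congrArg Prod.snd hyy
        · intro p hp
          simp only [mem_filter, mem_univ, true_and, Prod.mk.injEq] at hp
          refine ⟨p.2, ?_, ?_⟩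
          · simp only [mem_filter, mem_univ, true_and]
            exact hp.2
          · rw [← hp.1]
        · intro y _
          rfl
      have h3 : push (fun p : C1 × A2 => (E z p.1, p.2)) (P w) (E z f, α) = P w (f, α) := by
        simp only [push]
        apply sum_eq_single (f, α)
        · intro p hp hpne
          simp only [mem_filter, mem_univ, true_and, Prod.mk.injEq] at hp
          by_contra h4
          have h5 := hiso p.1 (hP w p h4) hp.1
          exact hpne (Prod.ext h5 hp.2)
        · intro h4
          exfalso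
          apply h4
          simp
      rw [← h2, ← h1, h3]
    set δ : C1 × C2 → ZMod 2 := rowm f V with hδ
    have hδP : ∀ w, push (fun p : C1 × C2 => (p.1, E' w p.2)) δ = rowm f (fun α => P w (f, α)) := by
      intro w
      rw [hδ, push_rowm, hrow]
    set P' : S2 → C1 × A2 → ZMod 2 := fun w => P w + rowm f (fun α => P w (f, α)) with hP'
    set Q' : S1 → A1 × C2 → ZMod 2 :=
      fun z' => Q z' + push (fun p : C1 × C2 => (E z' p.1, p.2)) δ with hQ'
    have hP'val : ∀ w p, P' w p = if p.1 = f then 0 else P w p := by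
      intro w p
      simp only [hP', Pi.add_apply, rowm]
      by_cases h : p.1 = f
      · rw [if_pos h, if_pos h]
        have : p = (f, p.2) := Prod.ext h rfl
        rw [← this]
        exact H770.add_self_zmod2 _
      · rw [if_neg h, if_neg h, add_zero]
    -- sizes
    have hszP : ∀ w, sz (P' w) + sz (push (E' w) V) = sz (P w) := by
      intro w
      rw [hrow w, ← sz_rowm f (fun α => P w (f, α))]
      simp only [sz]
      rw [← card_union_of_disjoint]
      · congr 1
        ext p
        simp only [mem_union, mem_filter, mem_univ, true_and, hP'val, rowm]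
        by_cases h : p.1 = f
        · have h7 : p = (f, p.2) := Prod.ext h rfl
          rw [if_pos h, if_pos h, ← h7]
          simp
        · rw [if_neg h, if_neg h]
          simp
      · rw [disjoint_left]
        intro p hp hp2
        simp only [mem_filter, mem_univ, true_and, hP'val, rowm] at hp hp2
        by_cases h : p.1 = f
        · rw [if_pos h] at hp
          exact hp rfl
        · rw [if_neg h] at hp2
          exact hp2 rfl
    have hVle : Fintype.card S2 * sz V ≤ 2 * ∑ w, sz (push (E' w) V) := by
      have h1 := lossless_sz hE' V (by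
        have h2 := hQ z
        have h3 : Fintype.card S2 * sz (Q z) ≤ Fintype.card S2 * b := by omega
        exact hVsz.trans ((Nat.le_of_mul_le_mul_left h3 hq2).trans hb))
      rw [card_univ] at h1
      have h2 : (0 : ℝ) ≤ (Fintype.card S2 : ℝ) * sz V := by positivity
      have h3 : (Fintype.card S2 : ℝ) * sz V ≤ 2 * ∑ w, (sz (push (E' w) V) : ℝ) := by
        nlinarith
      exact_mod_cast h3
    have hsum : ∑ w, sz (P' w) + ∑ w, sz (push (E' w) V) = ∑ w, sz (P w) := by
      rw [← sum_add_distrib]
      exact sum_congr rfl fun w _ => hszP w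
    obtain ⟨U', hU1, hU2, hU3⟩ := ih (F1.erase f) (by rw [card_erase_of_mem hf]; omega) (by omega)
      P' Q'
      (by
        intro w p hp
        rw [hP'val] at hp
        by_cases h : p.1 = f
        · rw [if_pos h] at hp
          exact absurd rfl hp
        · rw [if_neg h] at hp
          exact mem_erase.mpr ⟨h, hP w p hp⟩)
      (by
        intro z'
        have h1 : sz (Q' z') ≤ sz (Q z') + sz V := by
          refine (sz_add_le' _ _).trans (Nat.add_le_add_left ?_ _)
          refine (sz_push_le' _ _).trans ?_
          rw [hδ, sz_rowm]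
        have h2 := hQ z'
        calc Fintype.card S2 * sz (Q' z') + 2 * ∑ w, sz (P' w)
            ≤ Fintype.card S2 * (sz (Q z') + sz V) + 2 * ∑ w, sz (P' w) :=
              Nat.add_le_add_right (Nat.mul_le_mul_left _ h1) _
          _ ≤ Fintype.card S2 * b := by
              rw [mul_add]
              omega)
      (by
        intro z' w
        simp only [hP', hQ']
        rw [push_add', push_add', hc z' w, ← hδP w, push_push', push_push'])
    refine ⟨U' + δ, ?_, ?_, ?_⟩
    · intro w
      rw [push_add', hU1 w, hδP w]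
      simp only [hP']
      rw [add_assoc, add_self_meas, add_zero]
    · intro z'
      rw [push_add', hU2 z']
      simp only [hQ']
      rw [add_assoc, add_self_meas, add_zero]
    · have h1 : sz (U' + δ) ≤ sz U' + sz V := by
        refine (sz_add_le' _ _).trans (Nat.add_le_add_left ?_ _)
        rw [hδ, sz_rowm]
      calc Fintype.card S2 * sz (U' + δ) ≤ Fintype.card S2 * (sz U' + sz V) :=
            Nat.mul_le_mul_left _ h1
        _ ≤ 2 * ∑ w, sz (P w) := by
            rw [mul_add]
            omega

/-- **gluing of two blocks** -/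
theorem ds_glue (E : S1 → C1 → A1) (E' : S2 → C2 → A2) (e : ℝ) (he : e ≤ 1 / 4)
    (W0 W : ℕ) [Nonempty S1] [Nonempty S2]
    (hE : Lossless (univ : Finset S1) E W0 e) (hE' : Lossless (univ : Finset S2) E' W0 e)
    (hL : Lossless (univ : Finset S2) (fun w (p : A1 × C2) => (p.1, E' w p.2)) W0 e)
    (h3 : 3 * W ≤ W0) (hW : Fintype.card S2 * W ≤ W0)
    (P : S2 → C1 × A2 → ZMod 2) (Q : S1 → A1 × C2 → ZMod 2)
    (hP : ∀ w, sz (P w) ≤ W) (hQ : ∀ z, sz (Q z) ≤ W)
    (hc : ∀ z w, push (fun p : C1 × A2 => (E z p.1, p.2)) (P w) =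
      push (fun p : A1 × C2 => (p.1, E' w p.2)) (Q z)) :
    ∃ U : C1 × C2 → ZMod 2, (∀ w, push (fun p => (p.1, E' w p.2)) U = P w) ∧
      (∀ z, push (fun p => (E z p.1, p.2)) U = Q z) ∧ sz U ≤ 2 * W := by
  have hq2 : 0 < Fintype.card S2 := Fintype.card_pos
  have hsum : ∑ w, sz (P w) ≤ Fintype.card S2 * W := by
    calc ∑ w, sz (P w) ≤ ∑ _w : S2, W := sum_le_sum fun w _ => hP w
      _ = Fintype.card S2 * W := by rw [sum_const, card_univ, smul_eq_mul]
  set F1 : Finset C1 := univ.biUnion fun w : S2 => (univ.filter fun p => P w p ≠ 0).image Prod.fst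
    with hF1
  have hF1c : F1.card ≤ Fintype.card S2 * W := by
    refine card_biUnion_le.trans (le_trans ?_ hsum)
    exact sum_le_sum fun w _ => card_image_le
  obtain ⟨U, hU1, hU2, hU3⟩ := ds_glue_aux E E' e he W0 hE hE' hL (3 * W) h3 F1.card F1 rfl
    (hF1c.trans hW) P Q
    (by
      intro w p hp
      rw [hF1, mem_biUnion]
      exact ⟨w, mem_univ _, mem_image.mpr ⟨p, by simpa using hp, rfl⟩⟩)
    (by
      intro z
      have h1 : Fintype.card S2 * sz (Q z) ≤ Fintype.card S2 * W := Nat.mul_le_mul_left _ (hQ z)
      have h2 : Fintype.card S2 * (3 * W) = 3 * (Fintype.card S2 * W) := by ring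
      rw [h2]
      omega)
    hc
  refine ⟨U, hU1, hU2, ?_⟩
  have h4 : Fintype.card S2 * sz U ≤ Fintype.card S2 * (2 * W) := by
    have h2 : Fintype.card S2 * (2 * W) = 2 * (Fintype.card S2 * W) := by ring
    rw [h2]
    omega
  exact Nat.le_of_mul_le_mul_left h4 hq2

end glue

end Vale.Agent.P318.H283
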