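import Mathlib

/-!
# P318, module RM: the Reed-Muller test (dual form)

`Y` a finite `F_2`-space, `Aff Y` the affine functions, `B : Y → ZMod 2` a mod-2 measure.
`en s B` = probability that `∑ y, B y * a_1 y ⋯ a_s y = 1` for random affine `a_i`,
`Nul s B` : `B` is orthogonal to all products of `s` affine functions,
`wt B` = size of the support.

Main theorem `rm_test`: if `en s B ≤ 2^-10` then there is `U` with `Nul s (B + U)` and
`wt U ≤ (4/3) 2^s en s B`.
-/

open Finset

namespace Vale.Agent.P318.H283

variable {Y : Type*} [AddCommGroup Y] [Module (ZMod 2) Y] [Fintype Y]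

/-- affine functions `y ↦ φ y + c` -/
abbrev Aff (Y : Type*) [AddCommGroup Y] [Module (ZMod 2) Y] : Type _ :=
  (Y →ₗ[ZMod 2] ZMod 2) × ZMod 2

noncomputable instance instFintypeDual : Fintype (Y →ₗ[ZMod 2] ZMod 2) :=
  haveI : Finite (Y →ₗ[ZMod 2] ZMod 2) := DFunLike.finite _
  Fintype.ofFinite _

/-- value of an affine function -/
def ev (a : Aff Y) : Y → ZMod 2 := fun y => a.1 y + a.2

theorem ev_add (a b : Aff Y) : ev (a + b) = ev a + ev b := by
  funext y
  simp only [ev, Prod.fst_add, Prod.snd_add, LinearMap.add_apply, Pi.add_apply]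
  ring

theorem ev_one : ev ((0, 1) : Aff Y) = 1 := by
  funext y
  simp [ev]

theorem ev_zero : ev (0 : Aff Y) = 0 := by
  funext y
  simp [ev]

/-- arithmetic in `ZMod 2` -/
theorem z2_add_self (x : ZMod 2) : x + x = 0 := CharTwo.add_self_eq_zero x

theorem z2_cases (x : ZMod 2) : x = 0 ∨ x = 1 := by
  revert x
  decide

theorem z2_ne_zero {x : ZMod 2} (h : x ≠ 0) : x = 1 := (z2_cases x).resolve_left h

theorem z2_mul_self (x : ZMod 2) : x * x = x := by
  revert x
  decide

theorem fun_add_self (f : Y → ZMod 2) : f + f = 0 := by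
  funext y
  exact z2_add_self _

theorem ev_mul_self (a : Aff Y) : ev a * ev a = ev a := by
  funext y
  exact z2_mul_self _

theorem ev_mul_one_add (a : Aff Y) : ev a * (1 + ev a) = 0 := by
  rw [mul_add, mul_one, ev_mul_self, fun_add_self]

/-- separation of points -/
theorem sep {x x' : Y} (h : x ≠ x') : ∃ a : Aff Y, ev a x = 1 ∧ ev a x' = 0 := by
  have h1 : x - x' ≠ 0 := sub_ne_zero.mpr h
  have h2 : ¬ ∀ φ : Module.Dual (ZMod 2) Y, φ (x - x') = 0 := by
    rw [Module.forall_dual_apply_eq_zero_iff]
    exact h1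
  push Not at h2
  obtain ⟨φ, hφ⟩ := h2
  refine ⟨(φ, φ x'), ?_, ?_⟩
  · have h3 := z2_ne_zero hφ
    rw [map_sub] at h3
    simp only [ev]
    rw [← h3]
    have : φ x + φ x' = φ x - φ x' + (φ x' + φ x') := by ring
    rw [this, z2_add_self, add_zero]
  · simp only [ev]
    exact z2_add_self _

/-! ### weight, nullity, energy -/

/-- size of the support -/
def wt (B : Y → ZMod 2) : ℕ := (univ.filter fun y => B y ≠ 0).card

/-- orthogonality to products of `s` affine functions -/
def Nul : ℕ → (Y → ZMod 2) → Prop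
  | 0, B => ∑ y, B y = 0
  | s + 1, B => ∀ a : Aff Y, Nul s (B * ev a)

/-- average over the affine functions -/
noncomputable def av (f : Aff Y → ℝ) : ℝ := (∑ a, f a) / (Fintype.card (Aff Y) : ℝ)

/-- the energy -/
noncomputable def en : ℕ → (Y → ZMod 2) → ℝ
  | 0, B => if ∑ y, B y = 1 then 1 else 0
  | s + 1, B => av fun a : Aff Y => en s (B * ev a)

theorem Nul.add : ∀ {s : ℕ} {B C : Y → ZMod 2}, Nul s B → Nul s C → Nul s (B + C)
  | 0, B, C, hB, hC => by
      simp only [Nul] at hB hC ⊢
      simp only [Pi.add_apply, sum_add_distrib, hB, hC, add_zero]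
  | s + 1, B, C, hB, hC => by
      intro a
      rw [add_mul]
      exact (hB a).add (hC a)

theorem Nul.mul : ∀ {s : ℕ} {B : Y → ZMod 2} (a : Aff Y), Nul (s + 1) B → Nul s (B * ev a) :=
  fun a h => h a

theorem Nul.down {s : ℕ} {B : Y → ZMod 2} (h : Nul (s + 1) B) : Nul s B := by
  have := h (0, 1)
  rwa [ev_one, mul_one] at this

theorem Nul.mul_same : ∀ {s : ℕ} {B : Y → ZMod 2} (a : Aff Y), Nul s B → 1 ≤ s →
    Nul (s - 1) (B * ev a)
  | 0, _, _, _, h1 => absurd h1 (by norm_num)
  | s + 1, _, a, h, _ => h a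

theorem Nul.zero : ∀ s : ℕ, Nul s (0 : Y → ZMod 2)
  | 0 => by simp [Nul]
  | s + 1 => by
      intro a
      rw [zero_mul]
      exact Nul.zero s

theorem av_nonneg {f : Aff Y → ℝ} (h : ∀ a, 0 ≤ f a) : 0 ≤ av f :=
  div_nonneg (sum_nonneg fun a _ => h a) (Nat.cast_nonneg _)

theorem cardA_pos : (0 : ℝ) < (Fintype.card (Aff Y) : ℝ) := by
  have : 0 < Fintype.card (Aff Y) := Fintype.card_pos
  exact_mod_cast this

theorem av_mono {f g : Aff Y → ℝ} (h : ∀ a, f a ≤ g a) : av f ≤ av g :=
  div_le_div_of_nonneg_right (sum_le_sum fun a _ => h a) cardA_pos.le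

theorem av_const (c : ℝ) : av (fun _ : Aff Y => c) = c := by
  have := cardA_pos (Y := Y)
  simp only [av, sum_const, card_univ, nsmul_eq_mul]
  field_simp

theorem av_add (f g : Aff Y → ℝ) : av (fun a => f a + g a) = av f + av g := by
  simp only [av, sum_add_distrib, add_div]

theorem av_mul_left (c : ℝ) (f : Aff Y → ℝ) : av (fun a => c * f a) = c * av f := by
  simp only [av, ← mul_sum, mul_div_assoc]

theorem av_sub (f g : Aff Y → ℝ) : av (fun a => f a - g a) = av f - av g := by
  simp only [av, sum_sub_distrib, sub_div]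

theorem av_shift (f : Aff Y → ℝ) (b : Aff Y) : av (fun a => f (a + b)) = av f := by
  simp only [av]
  congr 1
  exact Fintype.sum_equiv (Equiv.addRight b) _ _ (fun a => rfl)

theorem av_sum {ι : Type*} (t : Finset ι) (f : ι → Aff Y → ℝ) :
    av (fun a => ∑ i ∈ t, f i a) = ∑ i ∈ t, av (f i) := by
  simp only [av]
  rw [sum_comm, sum_div]

theorem en_nonneg : ∀ (s : ℕ) (B : Y → ZMod 2), 0 ≤ en s B
  | 0, B => by
      simp only [en]
      split_ifs <;> norm_num
  | s + 1, B => av_nonneg fun a => en_nonneg s _

theorem en_le_one : ∀ (s : ℕ) (B : Y → ZMod 2), en s B ≤ 1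
  | 0, B => by
      simp only [en]
      split_ifs <;> norm_num
  | s + 1, B => by
      have h1 : en (s + 1) B ≤ av fun _ : Aff Y => (1 : ℝ) := av_mono fun a => en_le_one s _
      rwa [av_const] at h1

theorem Nul.en_eq : ∀ {s : ℕ} {B C : Y → ZMod 2}, Nul s (B + C) → en s B = en s C
  | 0, B, C, h => by
      simp only [Nul, Pi.add_apply, sum_add_distrib] at h
      simp only [en]
      have : ∑ y, B y = ∑ y, C y := CharTwo.add_eq_zero.mp h
      rw [this]
  | s + 1, B, C, h => by
      simp only [en]
      congr 1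
      funext a
      have := h a
      rw [add_mul] at this
      exact this.en_eq

/-- (1.2) -/
theorem en_ge_of_not_nul : ∀ (s : ℕ) (B : Y → ZMod 2), ¬ Nul s B → (1 / 2 : ℝ) ^ s ≤ en s B
  | 0, B, h => by
      simp only [Nul] at h
      simp only [en, pow_zero]
      rw [if_pos (z2_ne_zero h)]
  | s + 1, B, h => by
      simp only [Nul] at h
      push Not at h
      obtain ⟨a0, ha0⟩ := h
      have key : ∀ a : Aff Y, (1 / 2 : ℝ) ^ s ≤ en s (B * ev a) + en s (B * ev (a + a0)) := by
        intro a
        by_cases h1 : Nul s (B * ev a)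
        · have h2 : ¬ Nul s (B * ev (a + a0)) := by
            intro h3
            apply ha0
            have h4 := h1.add h3
            rw [ev_add, mul_add, ← add_assoc, fun_add_self, zero_add] at h4
            exact h4
          have := en_ge_of_not_nul s _ h2
          have := en_nonneg s (B * ev a)
          linarith
        · have := en_ge_of_not_nul s _ h1
          have := en_nonneg s (B * ev (a + a0))
          linarith
      have h5 := av_mono key
      rw [av_const, av_add, av_shift (fun a => en s (B * ev a)) a0] at h5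
      simp only [en]
      rw [pow_succ]
      linarith

theorem wt_eq_zero {B : Y → ZMod 2} (h : wt B = 0) : B = 0 := by
  funext y
  by_contra h1
  have : y ∈ univ.filter fun y => B y ≠ 0 := by simpa using h1
  rw [wt, card_eq_zero] at h
  rw [h] at this
  simp at this

theorem wt_mul_add (B : Y → ZMod 2) (a : Aff Y) :
    wt (B * ev a) + wt (B * (1 + ev a)) = wt B := by
  classical
  rw [wt, wt, wt, ← card_union_of_disjoint]
  · congr 1
    ext y
    simp only [mem_union, mem_filter, mem_univ, true_and, Pi.mul_apply, Pi.add_apply, Pi.one_apply]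
    have h11 : (1 : ZMod 2) + 1 = 0 := by decide
    rcases z2_cases (ev a y) with h | h <;> rw [h] <;> simp [h11]
  · rw [disjoint_left]
    intro y h1 h2
    simp only [mem_filter, mem_univ, true_and, Pi.mul_apply, Pi.add_apply, Pi.one_apply] at h1 h2
    rcases z2_cases (ev a y) with h | h
    · apply h1
      rw [h, mul_zero]
    · apply h2
      rw [h]
      have : (1 : ZMod 2) + 1 = 0 := by decide
      rw [this, mul_zero]

/-- (1.1) minimum distance -/
theorem min_dist : ∀ (s : ℕ) (U : Y → ZMod 2), Nul s U → U ≠ 0 → 2 ^ (s + 1) ≤ wt U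
  | 0, U, h, h0 => by
      simp only [Nul] at h
      by_contra h1
      push Not at h1
      have h2 : wt U ≠ 0 := fun h3 => h0 (wt_eq_zero h3)
      have h3 : wt U = 1 := by
        norm_num at h1
        omega
      rw [wt, card_eq_one] at h3
      obtain ⟨y, hy⟩ := h3
      have h4 : ∑ x, U x = U y := by
        apply sum_eq_single
        · intro b _ hb
          by_contra h5
          have : b ∈ univ.filter fun y => U y ≠ 0 := by simpa using h5
          rw [hy] at this
          exact hb (by simpa using this)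
        · intro h5
          exact absurd (mem_univ _) h5
      have h5 : y ∈ univ.filter fun y => U y ≠ 0 := by
        rw [hy]
        simp
      rw [h4] at h
      simp [h] at h5
  | s + 1, U, h, h0 => by
      obtain ⟨x, hx⟩ : ∃ x, U x ≠ 0 := by
        by_contra h1
        push Not at h1
        exact h0 (funext h1)
      have h1 : 2 ^ (s + 1) ≤ wt U := min_dist s U h.down h0
      have h2 : 1 < wt U := by
        have : 2 ^ 1 ≤ 2 ^ (s + 1) := Nat.pow_le_pow_right (by norm_num) (by omega)
        omega
      rw [wt, one_lt_card] at h2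
      obtain ⟨x, hx, x', hx', hne⟩ := h2
      simp only [mem_filter, mem_univ, true_and] at hx hx'
      obtain ⟨a, ha, ha'⟩ := sep hne
      have h3 : Nul s (U * ev a) := h a
      have h4 : Nul s (U * (1 + ev a)) := by
        have := h ((0, 1) + a)
        rwa [ev_add, ev_one] at this
      have h5 : U * ev a ≠ 0 := by
        intro h6
        have := congrFun h6 x
        simp only [Pi.mul_apply, Pi.zero_apply, ha, mul_one] at this
        exact hx this
      have h6 : U * (1 + ev a) ≠ 0 := by
        intro h6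
        have := congrFun h6 x'
        simp only [Pi.mul_apply, Pi.zero_apply, Pi.add_apply, Pi.one_apply, ha', add_zero,
          mul_one] at this
        exact hx' this
      have h7 := min_dist s _ h3 h5
      have h8 := min_dist s _ h4 h6
      have h9 := wt_mul_add U a
      rw [pow_succ]
      omega

theorem eq_zero_of_wt_lt {s : ℕ} {U : Y → ZMod 2} (h : Nul s U) (h1 : wt U < 2 ^ (s + 1)) :
    U = 0 := by
  by_contra h2
  have := min_dist s U h h2
  omega

/-! ### first and second moments -/

/-- real indicator of `1` -/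
def ch (x : ZMod 2) : ℝ := if x = 1 then 1 else 0

theorem ch_zero : ch 0 = 0 := by simp [ch]

theorem ch_one : ch 1 = 1 := by simp [ch]

theorem ch_add_one (x : ZMod 2) : ch x + ch (x + 1) = 1 := by
  rcases z2_cases x with h | h <;> subst h
  · rw [zero_add, ch_zero, ch_one, zero_add]
  · have : (1 : ZMod 2) + 1 = 0 := by decide
    rw [this, ch_zero, ch_one, add_zero]

theorem av_ch (x : Y) : av (fun a => ch (ev a x)) = 1 / 2 := by
  have h1 : av (fun a => ch (ev a x) + ch (ev (a + (0, 1)) x)) = 1 := by
    have : (fun a : Aff Y => ch (ev a x) + ch (ev (a + (0, 1)) x)) = fun _ => 1 := by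
      funext a
      rw [ev_add, ev_one]
      exact ch_add_one _
    rw [this, av_const]
  rw [av_add, av_shift (fun a => ch (ev a x)) (0, 1)] at h1
  linarith

theorem av_ch_mul {x x' : Y} (h : x ≠ x') :
    av (fun a => ch (ev a x) * ch (ev a x')) = 1 / 4 := by
  obtain ⟨b, hb, hb'⟩ := sep h
  have h1 : av (fun a => ch (ev a x) * ch (ev a x') +
      ch (ev (a + b) x) * ch (ev (a + b) x')) = av (fun a => ch (ev a x')) := by
    congr 1
    funext a
    rw [ev_add, Pi.add_apply, Pi.add_apply, hb, hb', add_zero, ← add_mul, ch_add_one, one_mul]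
  rw [av_add, av_shift (fun a => ch (ev a x) * ch (ev a x')) b, av_ch] at h1
  linarith

theorem wt_mul_ev (U : Y → ZMod 2) (a : Aff Y) :
    (wt (U * ev a) : ℝ) = ∑ y ∈ univ.filter (fun y => U y ≠ 0), ch (ev a y) := by
  classical
  have h1 : (univ.filter fun y => (U * ev a) y ≠ 0) =
      (univ.filter fun y => U y ≠ 0).filter (fun y => ev a y = 1) := by
    ext y
    simp only [mem_filter, mem_univ, true_and, Pi.mul_apply]
    rcases z2_cases (ev a y) with h | h <;> rw [h] <;> simp
  rw [wt, h1, card_filter]
  push_cast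
  rfl

theorem av_wt (U : Y → ZMod 2) : av (fun a => (wt (U * ev a) : ℝ)) = (wt U : ℝ) / 2 := by
  have h1 : (fun a : Aff Y => (wt (U * ev a) : ℝ)) =
      fun a => ∑ y ∈ univ.filter (fun y => U y ≠ 0), ch (ev a y) := funext (wt_mul_ev U)
  rw [h1, av_sum]
  simp only [av_ch, sum_const, nsmul_eq_mul]
  rw [wt]
  ring

theorem av_wt_sq (U : Y → ZMod 2) :
    av (fun a => (wt (U * ev a) : ℝ) ^ 2) = ((wt U : ℝ) ^ 2 + wt U) / 4 := by
  classical
  have h1 : (fun a : Aff Y => (wt (U * ev a) : ℝ) ^ 2) =
      fun a => ∑ y ∈ univ.filter (fun y => U y ≠ 0), ∑ y' ∈ univ.filter (fun y => U y ≠ 0),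
        ch (ev a y) * ch (ev a y') := by
    funext a
    rw [wt_mul_ev, sq, sum_mul_sum]
  rw [h1, av_sum]
  have h2 : ∀ y ∈ univ.filter (fun y => U y ≠ 0),
      av (fun a => ∑ y' ∈ univ.filter (fun y => U y ≠ 0), ch (ev a y) * ch (ev a y')) =
        ((wt U : ℝ) + 1) / 4 := by
    intro y hy
    rw [av_sum, ← add_sum_erase _ _ hy]
    have h3 : av (fun a => ch (ev a y) * ch (ev a y)) = 1 / 2 := by
      have : (fun a : Aff Y => ch (ev a y) * ch (ev a y)) = fun a => ch (ev a y) := by
        funext a
        rcases z2_cases (ev a y) with h | h <;> rw [h] <;> simp [ch]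
      rw [this, av_ch]
    have h4 : ∀ y' ∈ (univ.filter (fun y => U y ≠ 0)).erase y,
        av (fun a => ch (ev a y) * ch (ev a y')) = 1 / 4 := by
      intro y' hy'
      exact av_ch_mul (ne_of_mem_erase hy').symm
    rw [h3, sum_congr rfl h4, sum_const, card_erase_of_mem hy, nsmul_eq_mul, wt]
    have h5 : 1 ≤ (univ.filter fun y => U y ≠ 0).card := card_pos.mpr ⟨y, hy⟩
    push_cast [Nat.cast_sub h5]
    ring
  rw [sum_congr rfl h2, sum_const, nsmul_eq_mul, wt]
  ring

/-- (1.3) -/
theorem en_ge_bonf : ∀ (s : ℕ) (U : Y → ZMod 2),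
    (wt U : ℝ) * (1 / 2) ^ s - (wt U : ℝ) * ((wt U : ℝ) - 1) * (1 / 4) ^ s ≤ en s U
  | 0, U => by
      simp only [en, pow_zero, mul_one]
      rcases Nat.lt_or_ge (wt U) 2 with h | h
      · interval_cases h2 : wt U
        · simp
          split_ifs <;> norm_num
        · have h3 : ∑ y, U y = 1 := by
            rw [wt, card_eq_one] at h2
            obtain ⟨y, hy⟩ := h2
            have h4 : ∑ x, U x = U y := by
              apply sum_eq_single
              · intro b _ hb
                by_contra h5
                have : b ∈ univ.filter fun y => U y ≠ 0 := by simpa using h5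
                rw [hy] at this
                exact hb (by simpa using this)
              · intro h5
                exact absurd (mem_univ _) h5
            have h5 : y ∈ univ.filter fun y => U y ≠ 0 := by
              rw [hy]
              simp
            rw [h4]
            exact z2_ne_zero (by simpa using h5)
          rw [if_pos h3]
          norm_num
      · have h3 : (2 : ℝ) ≤ wt U := by exact_mod_cast h
        have h4 : (wt U : ℝ) - wt U * (wt U - 1) ≤ 0 := by nlinarith
        refine h4.trans ?_
        split_ifs <;> norm_num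
  | s + 1, U => by
      have h1 : av (fun a => (wt (U * ev a) : ℝ) * (1 / 2) ^ s -
          (wt (U * ev a) : ℝ) * ((wt (U * ev a) : ℝ) - 1) * (1 / 4) ^ s) ≤ en (s + 1) U := by
        simp only [en]
        exact av_mono fun a => en_ge_bonf s _
      refine le_trans (le_of_eq ?_) h1
      have h2 : (fun a : Aff Y => (wt (U * ev a) : ℝ) * (1 / 2) ^ s -
          (wt (U * ev a) : ℝ) * ((wt (U * ev a) : ℝ) - 1) * (1 / 4) ^ s) =
          fun a => ((1 / 2 : ℝ) ^ s + (1 / 4) ^ s) * (wt (U * ev a) : ℝ) -
            (1 / 4) ^ s * ((wt (U * ev a) : ℝ) ^ 2) := by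
        funext a
        ring
      rw [h2, av_sub, av_mul_left, av_mul_left, av_wt, av_wt_sq, pow_succ, pow_succ]
      ring

/-- variance of the weight -/
theorem av_var (U : Y → ZMod 2) :
    av (fun a => ((wt (U * ev a) : ℝ) - wt U / 2) ^ 2) = (wt U : ℝ) / 4 := by
  have h2 : (fun a : Aff Y => ((wt (U * ev a) : ℝ) - wt U / 2) ^ 2) =
      fun a => ((wt (U * ev a) : ℝ) ^ 2 - (wt U : ℝ) * (wt (U * ev a) : ℝ)) +
        (wt U : ℝ) ^ 2 / 4 := by
    funext a
    ring
  rw [h2, av_add, av_sub, av_mul_left, av_const, av_wt, av_wt_sq]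
  ring

/-! ### push-forward under a linear retraction -/

open Classical in
/-- push-forward of a mod-2 measure -/
noncomputable def push (ρ : Y → Y) (B : Y → ZMod 2) : Y → ZMod 2 :=
  fun z => ∑ y ∈ univ.filter (fun y => ρ y = z), B y

theorem push_add (ρ : Y → Y) (B C : Y → ZMod 2) : push ρ (B + C) = push ρ B + push ρ C := by
  funext z
  simp only [push, Pi.add_apply, sum_add_distrib]

theorem push_mul (ρ : Y → Y) (B g : Y → ZMod 2) :
    push ρ B * g = push ρ (B * fun y => g (ρ y)) := by
  classical
  funext z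
  simp only [push, Pi.mul_apply, sum_mul]
  apply sum_congr rfl
  intro y hy
  simp only [mem_filter, mem_univ, true_and] at hy
  rw [hy]

theorem sum_push (ρ : Y → Y) (B : Y → ZMod 2) : ∑ z, push ρ B z = ∑ y, B y := by
  classical
  simp only [push]
  have := sum_fiberwise (univ : Finset Y) ρ B
  convert this using 2

/-- composition of an affine function with a linear map -/
def cmp (a : Aff Y) (ρ : Y →ₗ[ZMod 2] Y) : Aff Y := (a.1 ∘ₗ ρ, a.2)

theorem ev_cmp (a : Aff Y) (ρ : Y →ₗ[ZMod 2] Y) : ev (cmp a ρ) = fun y => ev a (ρ y) := rfl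

theorem Nul.push (ρ : Y →ₗ[ZMod 2] Y) : ∀ {s : ℕ} {B : Y → ZMod 2}, Nul s B →
    Nul s (H283.push ρ B)
  | 0, B, h => by
      simp only [Nul] at h ⊢
      rw [sum_push, h]
  | s + 1, B, h => by
      intro a
      rw [push_mul, ← ev_cmp]
      exact Nul.push ρ (h _)

theorem tel (S0 : Set (Y →ₗ[ZMod 2] ZMod 2)) (ρ : Y →ₗ[ZMod 2] Y)
    (hρ : ∀ φ : Y →ₗ[ZMod 2] ZMod 2, φ + φ ∘ₗ ρ ∈ S0) :
    ∀ (s : ℕ) (B : Y → ZMod 2), (∀ t, s = t + 1 → ∀ σ ∈ S0, Nul t (B * ev ((σ, 0) : Aff Y))) →
      Nul s (B + push ρ B)
  | 0, B, _ => by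
      simp only [Nul, Pi.add_apply, sum_add_distrib]
      rw [sum_push, z2_add_self]
  | s + 1, B, h => by
      intro a
      have h1 : ev (cmp a ρ) = ev a + ev ((a.1 + a.1 ∘ₗ ρ, 0) : Aff Y) := by
        funext y
        simp only [ev, cmp, Pi.add_apply, LinearMap.add_apply, LinearMap.comp_apply]
        have := z2_add_self (a.1 y)
        calc a.1 (ρ y) + a.2 = (a.1 y + a.1 y) + (a.1 (ρ y) + a.2) := by rw [this, zero_add]
          _ = _ := by ring
      have h2 : (B + push ρ B) * ev a = (B * ev a + push ρ (B * ev a)) +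
          push ρ (B * ev ((a.1 + a.1 ∘ₗ ρ, 0) : Aff Y)) := by
        rw [add_mul, push_mul, ← ev_cmp, h1, mul_add, push_add, add_assoc]
      rw [h2]
      apply Nul.add
      · apply tel S0 ρ hρ s
        intro t ht σ hσ
        have h3 := h s rfl σ hσ
        subst ht
        have h4 := h3 a
        rwa [mul_assoc, mul_comm (ev ((σ, 0) : Aff Y)), ← mul_assoc] at h4
      · exact (h s rfl _ (hρ _)).push ρ

/-- claim (v) of the text, in the form without case distinction -/
theorem exists_small (B : Y → ZMod 2) (s : ℕ) (H : Finset (Aff Y)) (γ : ℝ) (hγ : 0 < γ)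
    (hH : ∀ a ∈ H, Nul s (B * ev a)) (hcard : γ * Fintype.card (Aff Y) ≤ H.card) :
    ∃ U : Y → ZMod 2, (wt U : ℝ) ≤ 1 / γ ∧ Nul (s + 1) (B + U) := by
  classical
  let S0 : Submodule (ZMod 2) (Module.Dual (ZMod 2) Y) :=
    { carrier := {φ | Nul s (B * ev ((φ, 0) : Aff Y))}
      add_mem' := by
        intro φ ψ hφ hψ
        have h1 : ev ((φ + ψ, 0) : Aff Y) = ev ((φ, 0) : Aff Y) + ev ((ψ, 0) : Aff Y) := by
          rw [← ev_add]
          congr 1
        change Nul s (B * ev ((φ + ψ, 0) : Aff Y))
        rw [h1, mul_add]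
        exact Nul.add hφ hψ
      zero_mem' := by
        change Nul s (B * ev ((0, 0) : Aff Y))
        have : ev ((0, 0) : Aff Y) = 0 := ev_zero
        rw [this, mul_zero]
        exact Nul.zero s
      smul_mem' := by
        intro c φ hφ
        rcases z2_cases c with h | h
        · subst h
          change Nul s (B * ev (((0 : ZMod 2) • φ, 0) : Aff Y))
          rw [zero_smul]
          have : ev ((0, 0) : Aff Y) = 0 := ev_zero
          rw [this, mul_zero]
          exact Nul.zero s
        · subst h
          change Nul s (B * ev (((1 : ZMod 2) • φ, 0) : Aff Y))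
          rw [one_smul]
          exact hφ }
  have hS0 : ∀ φ : Y →ₗ[ZMod 2] ZMod 2, φ ∈ S0 ↔ Nul s (B * ev ((φ, 0) : Aff Y)) :=
    fun φ => Iff.rfl
  -- the size of `S0`
  have hcS : (H.card : ℝ) ≤ 2 * (Nat.card S0 : ℝ) := by
    have hs0 : ∀ t : Finset (Y →ₗ[ZMod 2] ZMod 2), (∀ φ ∈ t, φ ∈ S0) → t.card ≤ Nat.card S0 := by
      intro t ht
      have h1 : Nat.card t = t.card := by
        rw [Nat.card_eq_fintype_card, Fintype.card_coe]
      rw [← h1]
      exact Nat.card_le_card_of_injective (fun x : t => (⟨x.1, ht x.1 x.2⟩ : S0))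
        (fun x y hxy => by
          have h9 : x.1 = y.1 := congrArg (fun w => w.1) hxy
          exact Subtype.ext h9)
    have h0 : (H.filter fun a => a.2 = 0).card ≤ Nat.card S0 := by
      rw [← card_image_of_injOn (f := fun a : Aff Y => a.1)]
      · apply hs0
        intro φ hφ
        simp only [mem_image, mem_filter] at hφ
        obtain ⟨a, ⟨ha, ha2⟩, rfl⟩ := hφ
        have h1 := hH a ha
        have h2 : a = (a.1, 0) := by
          rw [← ha2]
        rw [h2] at h1
        exact h1
      · intro a ha b hb hab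
        simp only [coe_filter, Set.mem_ofPred_eq] at ha hb
        exact Prod.ext hab (ha.2.trans hb.2.symm)
    have h1 : (H.filter fun a => ¬ a.2 = 0).card ≤ Nat.card S0 := by
      rcases (H.filter fun a => ¬ a.2 = 0).eq_empty_or_nonempty with h | ⟨b, hb⟩
      · rw [h, card_empty]
        exact Nat.zero_le _
      · rw [← card_image_of_injOn (f := fun a : Aff Y => a.1 + b.1)]
        · apply hs0
          intro φ hφ
          simp only [mem_image, mem_filter] at hφ hb
          obtain ⟨a, ⟨ha, ha2⟩, rfl⟩ := hφ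
          have h1 := (hH a ha).add (hH b hb.1)
          rw [← mul_add, ← ev_add] at h1
          have h2 : a + b = (a.1 + b.1, 0) := by
            apply Prod.ext
            · rfl
            · change a.2 + b.2 = 0
              rw [z2_ne_zero ha2, z2_ne_zero hb.2]
              exact z2_add_self 1
          rw [h2] at h1
          exact h1
        · intro a ha c hc hac
          simp only [coe_filter, Set.mem_ofPred_eq] at ha hc
          have h3 : a.1 = c.1 := add_right_cancel hac
          exact Prod.ext h3 ((z2_ne_zero ha.2).trans (z2_ne_zero hc.2).symm)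
    have h2 : H.card = (H.filter fun a => a.2 = 0).card + (H.filter fun a => ¬ a.2 = 0).card :=
      (card_filter_add_card_filter_not _).symm
    have h3 : H.card ≤ 2 * Nat.card S0 := by omega
    exact_mod_cast h3
  -- common zeros
  let Z : Submodule (ZMod 2) Y := S0.dualCoannihilator
  have hZ : Z.dualAnnihilator = S0 := Subspace.dualCoannihilator_dualAnnihilator_eq
  obtain ⟨g, hg⟩ := LinearMap.exists_extend (p := Z) (LinearMap.id : Z →ₗ[ZMod 2] Z)
  let ρ : Y →ₗ[ZMod 2] Y := Z.subtype ∘ₗ g
  have hρZ : ∀ y, ρ y ∈ Z := fun y => (g y).2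
  have hρid : ∀ z ∈ Z, ρ z = z := by
    intro z hz
    have h1 : g z = ⟨z, hz⟩ := by
      have := LinearMap.congr_fun hg ⟨z, hz⟩
      simpa using this
    change ((g z : Z) : Y) = z
    rw [h1]
  have hρ : ∀ φ : Y →ₗ[ZMod 2] ZMod 2, φ + φ ∘ₗ ρ ∈ (S0 : Set (Y →ₗ[ZMod 2] ZMod 2)) := by
    intro φ
    rw [SetLike.mem_coe, ← hZ, Submodule.mem_dualAnnihilator]
    intro z hz
    rw [LinearMap.add_apply, LinearMap.comp_apply, hρid z hz]
    exact z2_add_self _
  refine ⟨push ρ B, ?_, ?_⟩
  · have h1 : (wt (push ρ B)) ≤ Nat.card Z := by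
      have h2 : Nat.card (univ.filter fun y => push ρ B y ≠ 0) = wt (push ρ B) := by
        rw [Nat.card_eq_fintype_card, Fintype.card_coe, wt]
      rw [← h2]
      refine Nat.card_le_card_of_injective (fun x : (univ.filter fun y => push ρ B y ≠ 0) =>
        (⟨x.1, ?_⟩ : Z)) (fun x y hxy => by
          have h9 : x.1 = y.1 := congrArg (fun w => w.1) hxy
          exact Subtype.ext h9)
      have h3 := (mem_filter.mp x.2).2
      by_contra h4
      apply h3
      simp only [push]
      rw [sum_eq_zero]
      intro y hy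
      exfalso
      apply h4
      rw [← (mem_filter.mp hy).2]
      exact hρZ y
    have h2 : Nat.card S0 * Nat.card Z = Nat.card Y := by
      have h3 : Module.finrank (ZMod 2) S0 + Module.finrank (ZMod 2) Z =
        Module.finrank (ZMod 2) Y := Subspace.finrank_add_finrank_dualCoannihilator_eq S0
      rw [Module.natCard_eq_pow_finrank (K := ZMod 2) (V := S0),
        Module.natCard_eq_pow_finrank (K := ZMod 2) (V := Z),
        Module.natCard_eq_pow_finrank (K := ZMod 2) (V := Y), ← pow_add, h3]
    have h4 : Fintype.card (Aff Y) = 2 * Nat.card Y := by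
      rw [Fintype.card_prod, ZMod.card, mul_comm]
      congr 1
      rw [← Nat.card_eq_fintype_card]
      have h5 : Nat.card (Module.Dual (ZMod 2) Y) = Nat.card Y := by
        rw [Module.natCard_eq_pow_finrank (K := ZMod 2) (V := Module.Dual (ZMod 2) Y),
          Module.natCard_eq_pow_finrank (K := ZMod 2) (V := Y), Subspace.dual_finrank_eq]
      exact h5
    have h5 : (0 : ℝ) < Nat.card S0 := by
      have : 0 < Nat.card S0 := Nat.card_pos
      exact_mod_cast this
    have h6 : (Nat.card S0 : ℝ) * Nat.card Z = Nat.card Y := by exact_mod_cast h2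
    have h7 : γ * (2 * Nat.card Y) ≤ 2 * (Nat.card S0 : ℝ) := by
      rw [h4] at hcard
      push_cast at hcard
      linarith
    have h8 : γ * (Nat.card Z : ℝ) ≤ 1 := by
      rw [← h6] at h7
      have h9 : (Nat.card S0 : ℝ) * (γ * (Nat.card Z : ℝ)) ≤ (Nat.card S0 : ℝ) * 1 := by
        nlinarith
      exact le_of_mul_le_mul_left h9 h5
    have h9 : (wt (push ρ B) : ℝ) ≤ Nat.card Z := by exact_mod_cast h1
    rw [le_div_iff₀ hγ]
    nlinarith
  · apply tel (S0 : Set (Y →ₗ[ZMod 2] ZMod 2)) ρ hρ
    intro t ht σ hσ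
    have : s = t := by omega
    subst this
    exact hσ

/-! ### the main theorem -/

theorem wt_add_le (B C : Y → ZMod 2) : wt (B + C) ≤ wt B + wt C := by
  classical
  simp only [wt]
  refine le_trans (card_le_card ?_) (card_union_le _ _)
  intro y hy
  simp only [mem_filter, mem_univ, true_and, mem_union, Pi.add_apply] at hy ⊢
  by_contra h
  push Not at h
  apply hy
  rw [h.1, h.2, add_zero]

theorem wt_mul_le (B g : Y → ZMod 2) : wt (B * g) ≤ wt B := by
  simp only [wt]
  apply card_le_card
  intro y hy
  simp only [mem_filter, mem_univ, true_and, Pi.mul_apply] at hy ⊢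
  intro h
  apply hy
  rw [h, zero_mul]

theorem wt_zero : wt (0 : Y → ZMod 2) = 0 := by simp [wt]

/-- thresholds -/
noncomputable def th (s : ℕ) : ℝ := (1 / 2) ^ 10 * (1 + 64 * (1 / 2) ^ s)

theorem th_pos (s : ℕ) : 0 < th s := by
  have : (0 : ℝ) < (1 / 2) ^ s := by positivity
  simp only [th]
  positivity

theorem pow_half_le {s : ℕ} (hs : 9 ≤ s) : ((1 : ℝ) / 2) ^ s ≤ 1 / 512 := by
  have h1 : ((1 : ℝ) / 2) ^ s ≤ (1 / 2) ^ 9 :=
    pow_le_pow_of_le_one (by norm_num) (by norm_num) hs
  norm_num at h1 ⊢
  exact h1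

theorem th_step {s : ℕ} (hs : 9 ≤ s) : th (s + 1) ≤ (1 - 16 * (1 / 2) ^ s) * th s := by
  have h1 := pow_half_le hs
  have h2 : (0 : ℝ) < (1 / 2) ^ s := by positivity
  simp only [th]
  rw [pow_succ (1 / 2 : ℝ) s]
  nlinarith

theorem th_lt {s : ℕ} (hs : s ≤ 9) : th s < (1 / 2) ^ s := by
  simp only [th]
  interval_cases s <;> norm_num

theorem rm_main : ∀ (s : ℕ) (B : Y → ZMod 2), en s B ≤ th s →
    ∃ U : Y → ZMod 2, (wt U : ℝ) ≤ 4 / 3 * 2 ^ s * en s B ∧ Nul s (B + U) := by
  intro s
  induction s with
  | zero =>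
    intro B h
    refine ⟨0, ?_, ?_⟩
    · rw [wt_zero]
      have := en_nonneg 0 B
      push_cast
      positivity
    · rw [add_zero]
      by_contra h1
      have h2 := en_ge_of_not_nul _ _ h1
      have h3 := th_lt (show 0 ≤ 9 by norm_num)
      linarith
  | succ s ih =>
    intro B h
    classical
    by_cases hs : s + 1 ≤ 9
    · refine ⟨0, ?_, ?_⟩
      · rw [wt_zero]
        have := en_nonneg (s + 1) B
        push_cast
        positivity
      · rw [add_zero]
        by_contra h1
        have h2 := en_ge_of_not_nul _ _ h1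
        have h3 := th_lt hs
        linarith
    · have hs9 : 9 ≤ s := by omega
      obtain ⟨r, rfl⟩ : ∃ r, s = r + 1 := ⟨s - 1, by omega⟩
      have hx := pow_half_le hs9
      have hx0 : (0 : ℝ) < (1 / 2) ^ (r + 1) := by positivity
      -- the good affine functions
      set H : Finset (Aff Y) := univ.filter fun a => en (r + 1) (B * ev a) ≤ th (r + 1) with hHdef
      have hHmem : ∀ a, a ∈ H ↔ en (r + 1) (B * ev a) ≤ th (r + 1) := by
        intro a
        simp [hHdef]
      have hcard : 16 * (1 / 2 : ℝ) ^ (r + 1) * Fintype.card (Aff Y) ≤ H.card := by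
        by_contra hlt
        push Not at hlt
        have h1 : ∀ a : Aff Y, th (r + 1) - th (r + 1) * (if a ∈ H then (1 : ℝ) else 0) ≤
            en (r + 1) (B * ev a) := by
          intro a
          by_cases ha : a ∈ H
          · rw [if_pos ha]
            have := en_nonneg (r + 1) (B * ev a)
            linarith
          · rw [if_neg ha]
            rw [hHmem] at ha
            push Not at ha
            linarith
        have h2 := av_mono h1
        rw [av_sub, av_const, av_mul_left] at h2
        have h3 : av (fun a : Aff Y => if a ∈ H then (1 : ℝ) else 0) =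
            (H.card : ℝ) / Fintype.card (Aff Y) := by
          simp only [av]
          congr 1
          rw [sum_boole]
          congr 2
          ext a
          simp
        rw [h3] at h2
        have h4 : (H.card : ℝ) / Fintype.card (Aff Y) < 16 * (1 / 2) ^ (r + 1) := by
          rw [div_lt_iff₀ cardA_pos]
          exact hlt
        have h5 : en (r + 1 + 1) B = av fun a : Aff Y => en (r + 1) (B * ev a) := rfl
        rw [← h5] at h2
        have h6 := th_step hs9
        have h7 := th_pos (r + 1)
        nlinarith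
      -- local solutions
      have hloc : ∀ a : Aff Y, ∃ U : Y → ZMod 2, a ∈ H →
          ((wt U : ℝ) ≤ 2 ^ (r + 1) / 512 ∧ Nul (r + 1) (B * ev a + U)) := by
        intro a
        by_cases ha : a ∈ H
        · obtain ⟨U, hU1, hU2⟩ := ih (B * ev a) ((hHmem a).mp ha)
          refine ⟨U, fun _ => ⟨hU1.trans ?_, hU2⟩⟩
          have h1 := (hHmem a).mp ha
          have h2 : th (r + 1) ≤ 9 / 8192 := by
            simp only [th]
            norm_num
            norm_num at hx
            linarith
          have h3 : (0 : ℝ) < 2 ^ (r + 1) := by positivity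
          nlinarith
        · exact ⟨0, fun h => absurd h ha⟩
      choose Ua hUa using hloc
      have hwt : ∀ a ∈ H, (wt (Ua a) : ℝ) ≤ 2 ^ (r + 1) / 512 := fun a ha => (hUa a ha).1
      have hnul : ∀ a ∈ H, Nul (r + 1) (B * ev a + Ua a) := fun a ha => (hUa a ha).2
      have hp : (0 : ℝ) < 2 ^ (r + 1) := by positivity
      -- (i)
      have hi : ∀ a ∈ H, Ua a * ev a = Ua a := by
        intro a ha
        have h1 : Nul r (Ua a * (1 + ev a)) := by
          have h2 := (hnul a ha) ((0, 1) + a)
          rw [ev_add, ev_one, add_mul, mul_assoc, ev_mul_one_add, mul_zero, zero_add] at h2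
          exact h2
        have h2 : Ua a * (1 + ev a) = 0 := by
          apply eq_zero_of_wt_lt h1
          have h3 : (wt (Ua a * (1 + ev a)) : ℝ) ≤ wt (Ua a) := by
            exact_mod_cast wt_mul_le _ _
          have h4 := hwt a ha
          have h5 : (wt (Ua a * (1 + ev a)) : ℝ) < 2 ^ (r + 1) := by linarith
          exact_mod_cast h5
        rw [mul_add, mul_one] at h2
        exact (CharTwo.add_eq_zero.mp h2).symm
      -- (ii)
      have hii : ∀ a ∈ H, ∀ b ∈ H, Ua a * ev b = Ua b * ev a := by
        intro a ha b hb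
        have h1 : Nul r (Ua a * ev b + Ua b * ev a) := by
          have h2 := ((hnul a ha) b).add ((hnul b hb) a)
          have h3 : (B * ev a + Ua a) * ev b + (B * ev b + Ua b) * ev a =
              (B * ev a * ev b + B * ev a * ev b) + (Ua a * ev b + Ua b * ev a) := by ring
          rw [h3, fun_add_self, zero_add] at h2
          exact h2
        have h2 : Ua a * ev b + Ua b * ev a = 0 := by
          apply eq_zero_of_wt_lt h1
          have h3 : (wt (Ua a * ev b + Ua b * ev a) : ℝ) ≤ wt (Ua a) + wt (Ua b) := by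
            exact_mod_cast (wt_add_le _ _).trans (add_le_add (wt_mul_le _ _) (wt_mul_le _ _))
          have h4 := hwt a ha
          have h5 := hwt b hb
          have h6 : (wt (Ua a * ev b + Ua b * ev a) : ℝ) < 2 ^ (r + 1) := by linarith
          exact_mod_cast h6
        exact CharTwo.add_eq_zero.mp h2
      -- (iii)
      set U : Y → ZMod 2 := fun y => if ∃ a ∈ H, Ua a y ≠ 0 then 1 else 0 with hUdef
      have hU : ∀ a ∈ H, U * ev a = Ua a := by
        intro a ha
        funext y
        by_cases h1 : Ua a y = 0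
        · rw [h1]
          by_contra h2
          have h3 : U y ≠ 0 := fun h4 => h2 (by rw [Pi.mul_apply, h4, zero_mul])
          have h4 : ev a y ≠ 0 := fun h4 => h2 (by rw [Pi.mul_apply, h4, mul_zero])
          have h5 : ∃ b ∈ H, Ua b y ≠ 0 := by
            by_contra h6
            apply h3
            simp only [hUdef]
            rw [if_neg h6]
          obtain ⟨b, hb, hb1⟩ := h5
          have h6 := congrFun (hii a ha b hb) y
          rw [Pi.mul_apply, Pi.mul_apply, h1, zero_mul] at h6
          exact (mul_ne_zero hb1 h4) h6.symm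
        · have h2 : U y = 1 := by
            simp only [hUdef]
            rw [if_pos ⟨a, ha, h1⟩]
          have h3 := congrFun (hi a ha) y
          rw [Pi.mul_apply] at h3
          rcases z2_cases (ev a y) with h4 | h4
          · rw [h4, mul_zero] at h3
            exact absurd h3.symm h1
          · rw [Pi.mul_apply, h2, h4, mul_one, z2_ne_zero h1]
      -- (v)
      have hγ : (0 : ℝ) < 16 * (1 / 2) ^ (r + 1) := by positivity
      obtain ⟨U', hU'1, hU'2⟩ := exists_small (B + U) (r + 1) H (16 * (1 / 2) ^ (r + 1)) hγ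
        (by
          intro a ha
          rw [add_mul, hU a ha]
          exact hnul a ha) hcard
      have hinv : (1 / 2 : ℝ) ^ (r + 1) * 2 ^ (r + 1) = 1 := by
        rw [← mul_pow]
        norm_num
      -- (vi)
      have hUle : (wt U : ℝ) ≤ 2 ^ (r + 1) / 4 := by
        by_contra hgt
        push Not at hgt
        have hu0 : (0 : ℝ) < wt U := by linarith
        have h1 : ∀ a : Aff Y, ((wt U : ℝ) ^ 2 / 16) * (if a ∈ H then (1 : ℝ) else 0) ≤
            ((wt (U * ev a) : ℝ) - wt U / 2) ^ 2 := by
          intro a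
          by_cases ha : a ∈ H
          · rw [if_pos ha, mul_one]
            have h2 : (wt (U * ev a) : ℝ) ≤ 2 ^ (r + 1) / 512 := by
              rw [hU a ha]
              exact hwt a ha
            have h3 : (0 : ℝ) ≤ wt (U * ev a) := Nat.cast_nonneg _
            nlinarith
          · rw [if_neg ha, mul_zero]
            positivity
        have h2 := av_mono h1
        rw [av_mul_left, av_var] at h2
        have h3 : av (fun a : Aff Y => if a ∈ H then (1 : ℝ) else 0) =
            (H.card : ℝ) / Fintype.card (Aff Y) := by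
          simp only [av]
          congr 1
          rw [sum_boole]
          congr 2
          ext a
          simp
        have h4 : 16 * (1 / 2) ^ (r + 1) ≤ (H.card : ℝ) / Fintype.card (Aff Y) := by
          rw [le_div_iff₀ cardA_pos]
          exact hcard
        rw [h3] at h2
        have h5 : (wt U : ℝ) ^ 2 / 16 * (16 * (1 / 2) ^ (r + 1)) ≤ (wt U : ℝ) / 4 :=
          le_trans (mul_le_mul_of_nonneg_left h4 (by positivity)) h2
        have h6 : (wt U : ℝ) * (4 * (1 / 2) ^ (r + 1)) ≤ 1 := by
          have h7 : (wt U : ℝ) * ((wt U : ℝ) * (4 * (1 / 2) ^ (r + 1))) ≤ (wt U : ℝ) * 1 := by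
            nlinarith
          exact le_of_mul_le_mul_left h7 hu0
        nlinarith
      have hU'le : (wt U' : ℝ) ≤ 2 ^ (r + 1) / 16 := by
        refine hU'1.trans (le_of_eq ?_)
        field_simp
        linarith [hinv, mul_comm ((1 / 2 : ℝ) ^ (r + 1)) (2 ^ (r + 1))]
      refine ⟨U + U', ?_, ?_⟩
      · have hN : Nul (r + 1 + 1) (B + (U + U')) := by
          rw [← add_assoc]
          exact hU'2
        rw [hN.en_eq]
        have h1 := en_ge_bonf (r + 1 + 1) (U + U')
        have h2 : (wt (U + U') : ℝ) ≤ 2 ^ (r + 1 + 1) / 4 := by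
          have h3 : (wt (U + U') : ℝ) ≤ wt U + wt U' := by exact_mod_cast wt_add_le _ _
          rw [pow_succ]
          linarith
        have h4 : (1 / 4 : ℝ) ^ (r + 1 + 1) = (1 / 2) ^ (r + 1 + 1) * (1 / 2) ^ (r + 1 + 1) := by
          rw [← mul_pow]
          norm_num
        have h5 : (1 / 2 : ℝ) ^ (r + 1 + 1) * 2 ^ (r + 1 + 1) = 1 := by
          rw [← mul_pow]
          norm_num
        rw [h4] at h1
        set x : ℝ := (1 / 2) ^ (r + 1 + 1) with hx'
        set w : ℝ := (wt (U + U') : ℝ) with hw
        have hx0' : 0 < x := by positivity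
        have hw0 : 0 ≤ w := Nat.cast_nonneg _
        have h6 : w * x ≤ 1 / 4 := by
          have h7 := mul_le_mul_of_nonneg_right h2 hx0'.le
          nlinarith
        have h7 : 3 / 4 * (w * x) ≤ en (r + 1 + 1) (U + U') := by
          have h8 : w * x * (w * x) ≤ w * x * (1 / 4) :=
            mul_le_mul_of_nonneg_left h6 (by positivity)
          have h9 : w * (w - 1) * (x * x) = w * x * (w * x) - w * x * x := by ring
          have h10 : 0 ≤ w * x * x := by positivity
          linarith
        have h8 : (0 : ℝ) < 2 ^ (r + 1 + 1) := by positivity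
        calc w = 4 / 3 * 2 ^ (r + 1 + 1) * (3 / 4 * (w * x)) := by
              have : 4 / 3 * 2 ^ (r + 1 + 1) * (3 / 4 * (w * x)) =
                w * (x * 2 ^ (r + 1 + 1)) := by ring
              rw [this, h5, mul_one]
          _ ≤ 4 / 3 * 2 ^ (r + 1 + 1) * en (r + 1 + 1) (U + U') :=
              mul_le_mul_of_nonneg_left h7 (by positivity)
      · rw [← add_assoc]
        exact hU'2

/-- **(1.4)** the local test -/
theorem rm_test (s : ℕ) (B : Y → ZMod 2) (h : en s B ≤ (1 / 2) ^ 10) :
    ∃ U : Y → ZMod 2, (wt U : ℝ) ≤ 4 / 3 * 2 ^ s * en s B ∧ Nul s (B + U) := by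
  apply rm_main
  refine h.trans ?_
  have : (0 : ℝ) < (1 / 2) ^ s := by positivity
  simp only [th]
  nlinarith

/-! ### translation to tuples -/

theorem nul_iff : ∀ (s : ℕ) (B : Y → ZMod 2),
    Nul s B ↔ ∀ a : Fin s → Aff Y, ∑ y, B y * ∏ i, ev (a i) y = 0
  | 0, B => by
      simp [Nul]
  | s + 1, B => by
      simp only [Nul]
      constructor
      · intro h a
        have h1 := (nul_iff s _).mp (h (a 0)) (fun i => a i.succ)
        rw [← h1]
        apply sum_congr rfl
        intro y _
        rw [Fin.prod_univ_succ, Pi.mul_apply]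
        ring
      · intro h a
        rw [nul_iff s]
        intro b
        have h1 := h (Fin.cons a b)
        rw [← h1]
        apply sum_congr rfl
        intro y _
        rw [Fin.prod_univ_succ, Pi.mul_apply]
        simp only [Fin.cons_zero, Fin.cons_succ]
        ring

/-- the energy as a frequency -/
theorem en_eq_card : ∀ (s : ℕ) (B : Y → ZMod 2),
    en s B = ((univ.filter fun a : Fin s → Aff Y =>
      ∑ y, B y * ∏ i, ev (a i) y = 1).card : ℝ) / (Fintype.card (Aff Y) : ℝ) ^ s
  | 0, B => by
      simp only [en, pow_zero, div_one]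
      by_cases h : ∑ y, B y = 1
      · rw [if_pos h]
        have : (univ.filter fun a : Fin 0 → Aff Y => ∑ y, B y * ∏ i, ev (a i) y = 1) = univ := by
          ext a
          simp [h]
        rw [this]
        simp
      · rw [if_neg h]
        have : (univ.filter fun a : Fin 0 → Aff Y => ∑ y, B y * ∏ i, ev (a i) y = 1) = ∅ := by
          ext a
          simp [h]
        rw [this]
        simp
  | s + 1, B => by
      have h1 : ∀ a : Aff Y, en s (B * ev a) =
          (∑ b : Fin s → Aff Y, if ∑ y, B y * ∏ i, ev ((Fin.cons a b : Fin (s + 1) → Aff Y) i) y = 1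
            then (1 : ℝ) else 0) / (Fintype.card (Aff Y) : ℝ) ^ s := by
        intro a
        rw [en_eq_card s, sum_boole]
        congr 3
        ext b
        simp only [mem_filter, mem_univ, true_and]
        have h2 : ∑ y, (B * ev a) y * ∏ i, ev (b i) y =
            ∑ y, B y * ∏ i, ev ((Fin.cons a b : Fin (s + 1) → Aff Y) i) y := by
          apply sum_congr rfl
          intro y _
          rw [Fin.prod_univ_succ, Pi.mul_apply]
          simp only [Fin.cons_zero, Fin.cons_succ]
          ring
        rw [h2]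
      simp only [en, av]
      rw [sum_congr rfl (fun a _ => h1 a), ← sum_div, div_div, ← pow_succ, ← sum_boole]
      congr 1
      rw [← Fintype.sum_prod_type']
      exact Fintype.sum_equiv (Fin.consEquiv fun _ => Aff Y) _ _ (fun p => rfl)

/-- the local test for tuples -/
theorem rm_test_tuple (s : ℕ) (B : Y → ZMod 2) (e : ℝ)
    (he : e = ((univ.filter fun a : Fin s → Aff Y =>
      ∑ y, B y * ∏ i, ev (a i) y = 1).card : ℝ) / (Fintype.card (Aff Y) : ℝ) ^ s)
    (h : e ≤ (1 / 2) ^ 10) :
    ∃ U : Y → ZMod 2, (wt U : ℝ) ≤ 4 / 3 * 2 ^ s * e ∧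
      ∀ a : Fin s → Aff Y, ∑ y, B y * ∏ i, ev (a i) y = ∑ y, U y * ∏ i, ev (a i) y := by
  rw [← en_eq_card] at he
  obtain ⟨U, h1, h2⟩ := rm_test s B (he ▸ h)
  refine ⟨U, he ▸ h1, ?_⟩
  rw [nul_iff] at h2
  intro a
  have h3 := h2 a
  have h4 : ∑ y, (B + U) y * ∏ i, ev (a i) y =
      ∑ y, B y * ∏ i, ev (a i) y + ∑ y, U y * ∏ i, ev (a i) y := by
    rw [← sum_add_distrib]
    apply sum_congr rfl
    intro y _
    rw [Pi.add_apply, add_mul]
  rw [h4] at h3
  exact CharTwo.add_eq_zero.mp h3

end Vale.Agent.P318.H283
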