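import Vale.Agent.P318.H937.Spec
import Vale.Agent.P318.H283.RM

/-!
# P318: SpecMD, SpecRMlow, SpecRM
-/

open Finset

namespace Vale.Agent.P318.H283

open Vale.Agent.P318.H937 (pair push sz AffT affEval prodAff RMEq energyRM SpecMD SpecRMlow SpecRM)

variable {Y : Type} [AddCommGroup Y] [Module (ZMod 2) Y] [Fintype Y]

theorem pair_add_left (B C v : Y → ZMod 2) : pair (B + C) v = pair B v + pair C v := by
  simp only [pair, Pi.add_apply, add_mul, sum_add_distrib]

theorem pair_prodAff {s : ℕ} (B : Y → ZMod 2) (a : Fin s → AffT Y) :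
    pair B (prodAff a) = ∑ y, B y * ∏ i, ev (a i) y := rfl

theorem rmEq_iff (s : ℕ) (B U : Y → ZMod 2) : RMEq s B U ↔ Nul s (B + U) := by
  rw [nul_iff]
  constructor
  · intro h a
    have h1 := h (prodAff a) (Submodule.subset_span ⟨a, rfl⟩)
    have h2 := pair_add_left B U (prodAff a)
    rw [pair_prodAff] at h2
    rw [h2, h1]
    exact z2_add_self _
  · intro h v hv
    have h0 : pair (B + U) v = 0 := by
      unfold Vale.Agent.P318.H937.RM at hv
      induction hv using Submodule.span_induction with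
      | mem x hx =>
        obtain ⟨a, rfl⟩ := hx
        exact h a
      | zero => simp [pair]
      | add x y _ _ hx hy =>
        have : pair (B + U) (x + y) = pair (B + U) x + pair (B + U) y := by
          simp only [pair, Pi.add_apply, mul_add, sum_add_distrib]
        rw [this, hx, hy, add_zero]
      | smul c x _ hx =>
        have : pair (B + U) (c • x) = c * pair (B + U) x := by
          simp only [pair, Pi.smul_apply, smul_eq_mul, mul_sum]
          apply sum_congr rfl
          intro y _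
          ring
        rw [this, hx, mul_zero]
    rw [pair_add_left] at h0
    exact CharTwo.add_eq_zero.mp h0

theorem sz_eq_wt (B : Y → ZMod 2) : sz B = wt B := rfl

theorem energy_eq (s : ℕ) (B : Y → ZMod 2) : energyRM s B = en s B := by
  classical
  rw [en_eq_card]
  unfold energyRM
  have h1 : (Nat.card (Fin s → AffT Y) : ℝ) = (Fintype.card (Aff Y) : ℝ) ^ s := by
    have h2 : Nat.card (Fin s → AffT Y) = Nat.card (AffT Y) ^ s := by
      rw [Nat.card_fun, Nat.card_eq_fintype_card (α := Fin s), Fintype.card_fin]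
    rw [h2, Nat.card_eq_fintype_card (α := AffT Y)]
    push_cast
    rfl
  have h3 : Nat.card {a : Fin s → AffT Y // pair B (prodAff a) = 1} =
      (univ.filter fun a : Fin s → Aff Y => ∑ y, B y * ∏ i, ev (a i) y = 1).card := by
    rw [Nat.card_eq_fintype_card, Fintype.card_subtype]
    rfl
  rw [h1, h3]

theorem spec_MD : SpecMD := by
  intro Y _ _ _ s U h0 h
  rw [rmEq_iff, add_zero] at h
  exact min_dist s U h h0

theorem spec_RMlow : SpecRMlow := by
  intro Y _ _ _ s U
  rw [energy_eq, sz_eq_wt]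
  refine le_trans ?_ (en_ge_bonf s U)
  have h4 : (1 / 4 : ℝ) ^ s = (1 / 2) ^ s * (1 / 2) ^ s := by
    rw [← mul_pow]
    norm_num
  rw [h4]
  have h5 : (0 : ℝ) ≤ (1 / 2) ^ s := by positivity
  have h6 : (0 : ℝ) ≤ wt U := Nat.cast_nonneg _
  have h7 : (wt U : ℝ) * (1 / 2) ^ s - wt U * (wt U - 1) * ((1 / 2) ^ s * (1 / 2) ^ s) =
      (wt U : ℝ) * (1 / 2) ^ s * (1 - wt U * (1 / 2) ^ s) +
        wt U * ((1 / 2) ^ s * (1 / 2) ^ s) := by ring
  rw [h7]
  have h8 : 0 ≤ (wt U : ℝ) * ((1 / 2) ^ s * (1 / 2) ^ s) := by positivity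
  linarith

theorem spec_RM : SpecRM := by
  intro Y _ _ _ s B _ h
  rw [energy_eq] at h ⊢
  obtain ⟨U, h1, h2⟩ := rm_test s B h
  exact ⟨U, (rmEq_iff s B U).mpr h2, h1⟩

end Vale.Agent.P318.H283
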